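import Vale.Agent.P200.M.Quad
import Vale.Agent.P200.Q.Final

/-! Lex-plus-powers for regular sequences of quadrics of any length `c ≤ n`, over every field. -/

namespace Vale.Agent.P200.M

open MvPolynomial Module
open Vale.Agent.P200.B Vale.Agent.P200.G Vale.Agent.P200.L

variable {K : Type*} [Field K] {n c : ℕ}

/-- the cycle inequalities for quadrics -/
theorem quad_zle' (h : c ≤ n) (f : Fin c → MvPolynomial (Fin n) K)
    (hf : ∀ i, (f i).IsHomogeneous 2) (hreg : IsRegularSeq f) (p : ℕ) :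
    ZLE K h (fun _ => 2) p f :=
  quad_zle (fun _ _ _ _ _ h f hf hreg =>
    Q.egh_case h (fun _ => 2) (fun _ _ _ => le_rfl) (fun _ => le_rfl) f hf hreg
      (Q.case_of_quadrics _ (fun _ => rfl) f)) h f hf hreg p

/-- **Lex-plus-powers for quadrics.** -/
theorem lpp_quadrics (h : c ≤ n) (a : Fin c → ℕ) (ha : ∀ i, a i = 2)
    (f : Fin c → MvPolynomial (Fin n) K)
    (hf : ∀ i, (f i).IsHomogeneous (a i)) (hreg : IsRegularSeq f)
    (I : Ideal (MvPolynomial (Fin n) K)) (hI : HomIdeal I)
    (hfI : ∀ i, f i ∈ I) (J : Ideal (MvPolynomial (Fin n) K))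
    (hJ : J.restrictScalars K = lexPlusPowers h a I) (p j : ℕ) :
    betti I p j ≤ betti J p j := by
  obtain rfl : a = fun _ => 2 := funext ha
  exact betti_le_of_zle h (fun _ => 2) (fun _ => by norm_num) f hf hreg p
    (quad_zle' h f hf hreg p) (quad_zle' h f hf hreg (p + 1)) I hI hfI J hJ j

end Vale.Agent.P200.M
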