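import Vale.Agent.P200.M.BaseD

/-! Passage to the lowest monomials. -/

namespace Vale.Agent.P200.M

open MvPolynomial Module
open Vale.Agent.P200.B Vale.Agent.P200.G Vale.Agent.P200.L

variable {D : Type*} [DivisionRing D] {n : ℕ}

/-! ### Filtrations -/

section cut
variable {M W : Type*} [AddCommGroup M] [Module D M] [AddCommGroup W] [Module D W]

/-- the part of `C` killed by `π 0, …, π (i - 1)` -/
def degCut (C : Submodule D M) (π : ℕ → M →ₗ[D] W) (i : ℕ) : Submodule D M where
  carrier := {F | F ∈ C ∧ ∀ j < i, π j F = 0}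
  add_mem' := by
    rintro a b ⟨ha, ha'⟩ ⟨hb, hb'⟩
    refine ⟨C.add_mem ha hb, fun j hj => ?_⟩
    rw [map_add, ha' j hj, hb' j hj, add_zero]
  zero_mem' := ⟨C.zero_mem, fun j _ => map_zero _⟩
  smul_mem' := by
    rintro k a ⟨ha, ha'⟩
    refine ⟨C.smul_mem k ha, fun j hj => ?_⟩
    rw [map_smul, ha' j hj, smul_zero]

theorem mem_degCut {C : Submodule D M} {π : ℕ → M →ₗ[D] W} {i : ℕ} {F : M} :
    F ∈ degCut C π i ↔ F ∈ C ∧ ∀ j < i, π j F = 0 := Iff.rfl

theorem degCut_succ (C : Submodule D M) (π : ℕ → M →ₗ[D] W) (i : ℕ) :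
    degCut C π (i + 1) = degCut C π i ⊓ LinearMap.ker (π i) := by
  ext F
  rw [Submodule.mem_inf, mem_degCut, mem_degCut, LinearMap.mem_ker]
  constructor
  · rintro ⟨h1, h2⟩
    exact ⟨⟨h1, fun j hj => h2 j (by omega)⟩, h2 i (by omega)⟩
  · rintro ⟨⟨h1, h2⟩, h3⟩
    refine ⟨h1, fun j hj => ?_⟩
    rcases Nat.lt_succ_iff_lt_or_eq.1 hj with h | h
    · exact h2 j h
    · rw [h]
      exact h3

theorem degCut_le (C : Submodule D M) (π : ℕ → M →ₗ[D] W) (i : ℕ) : degCut C π i ≤ C :=
  fun _ h => h.1

theorem degCut_zero (C : Submodule D M) (π : ℕ → M →ₗ[D] W) : degCut C π 0 = C :=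
  le_antisymm (degCut_le C π 0) fun _ h => ⟨h, fun _ hj => absurd hj (Nat.not_lt_zero _)⟩

theorem deg_finrank_map_add (C : Submodule D M) [Module.Finite D C] (f : M →ₗ[D] W) :
    finrank D (C.map f) + finrank D (C ⊓ LinearMap.ker f : Submodule D M) = finrank D C := by
  have h := LinearMap.finrank_range_add_finrank_ker (f.domRestrict C)
  rw [LinearMap.range_domRestrict] at h
  rw [← h]
  congr 1
  have h2 : (LinearMap.ker (f.domRestrict C)).map C.subtype = C ⊓ LinearMap.ker f := by
    rw [LinearMap.ker_domRestrict, Submodule.map_comap_subtype]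
  rw [← h2]
  exact (LinearEquiv.finrank_eq (Submodule.equivSubtypeMap C _)).symm

theorem finrank_degCut (C : Submodule D M) (π : ℕ → M →ₗ[D] W) [Module.Finite D C] (N : ℕ) :
    finrank D C = ∑ i ∈ Finset.range N, finrank D ((degCut C π i).map (π i)) +
      finrank D (degCut C π N) := by
  induction N with
  | zero => rw [Finset.sum_range_zero, zero_add, degCut_zero]
  | succ N ih =>
    have h0 : Module.Finite D (degCut C π N) :=
      Submodule.finiteDimensional_of_le (degCut_le C π N)
    rw [ih, Finset.sum_range_succ, degCut_succ, add_assoc, deg_finrank_map_add]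

theorem finrank_le_of_degCut (U W' : Submodule D M) (π : ℕ → M →ₗ[D] W) [Module.Finite D U]
    [Module.Finite D W'] (N : ℕ) (hN : degCut U π N = ⊥)
    (h : ∀ i, (degCut U π i).map (π i) ≤ (degCut W' π i).map (π i)) :
    finrank D U ≤ finrank D W' := by
  rw [finrank_degCut U π N, finrank_degCut W' π N, hN, finrank_bot, add_zero]
  refine le_trans (Finset.sum_le_sum fun i _ => ?_) (Nat.le_add_right _ _)
  have h0 : Module.Finite D (degCut W' π i) := Submodule.finiteDimensional_of_le (degCut_le W' π i)
  have h1 : Module.Finite D ((degCut W' π i).map (π i)) := inferInstance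
  exact Submodule.finrank_mono (h i)

end cut

/-! ### Weights -/

theorem deg_digits {B : ℕ} {n : ℕ} (f g : Fin n → ℕ) (hf : ∀ i, f i < B) (hg : ∀ i, g i < B)
    (h : ∑ i, f i * B ^ (i : ℕ) = ∑ i, g i * B ^ (i : ℕ)) : f = g := by
  induction n with
  | zero => exact Subsingleton.elim _ _
  | succ n ih =>
    have key : ∀ f : Fin (n + 1) → ℕ, ∑ i, f i * B ^ (i : ℕ) =
        f 0 + B * ∑ i : Fin n, f i.succ * B ^ (i : ℕ) := by
      intro f
      rw [Fin.sum_univ_succ, Finset.mul_sum]
      congr 1
      · simp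
      · refine Finset.sum_congr rfl fun i _ => ?_
        rw [Fin.val_succ, pow_succ]
        ring
    rw [key, key] at h
    have h0 : f 0 = g 0 := by
      have := congrArg (· % B) h
      simpa [Nat.add_mul_mod_self_left, Nat.mod_eq_of_lt (hf 0), Nat.mod_eq_of_lt (hg 0)] using this
    have hB : 0 < B := lt_of_le_of_lt (Nat.zero_le _) (hf 0)
    rw [h0] at h
    have h1 := Nat.eq_of_mul_eq_mul_left hB (Nat.add_left_cancel h)
    have h2 := ih (fun i => f i.succ) (fun i => g i.succ) (fun i => hf _) (fun i => hg _) h1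
    funext i
    refine Fin.cases h0 (fun j => ?_) i
    exact congrFun h2 j

theorem deg_le_sum (m : Fin n →₀ ℕ) (i : Fin n) : m i ≤ ∑ i, m i :=
  Finset.single_le_sum (f := fun i => m i) (fun _ _ => Nat.zero_le _) (Finset.mem_univ i)

theorem wt_injOn {B e : ℕ} (hB : e < B) {m m' : Fin n →₀ ℕ} (hm : ∑ i, m i = e)
    (hm' : ∑ i, m' i = e) (h : wt B m = wt B m') : m = m' := by
  apply DFunLike.coe_injective
  exact deg_digits _ _ (fun i => lt_of_le_of_lt (deg_le_sum m i) (by omega))
    (fun i => lt_of_le_of_lt (deg_le_sum m' i) (by omega)) h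

theorem inm_subset {B e : ℕ} {V : Submodule D (YR D n)} (hV : V ≤ YD D n e) {m : Fin n →₀ ℕ}
    (hm : m ∈ inm B V) : ∑ i, m i = e := by
  obtain ⟨u, hu, h, -⟩ := hm
  exact hV hu m h

theorem deg_finite (n e : ℕ) : {m : Fin n →₀ ℕ | ∑ i, m i = e}.Finite := by
  refine Set.Finite.subset (Set.Finite.preimage (f := fun m : Fin n →₀ ℕ => (m : Fin n → ℕ))
    (DFunLike.coe_injective.injOn) (Set.Finite.pi' (t := fun _ : Fin n => Set.Iic e)
      fun _ => Set.finite_Iic e)) ?_
  intro m hm
  change ∀ i, m i ≤ e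
  intro i
  have h : ∑ i, m i = e := hm
  rw [← h]
  exact deg_le_sum m i

theorem monD_eq_supported (M : Set (Fin n →₀ ℕ)) :
    monD D M = AddMonoidAlgebra.supported D D M := by
  ext u
  rw [AddMonoidAlgebra.mem_supported']
  constructor
  · intro h m hm
    by_contra h0
    exact hm (h m h0)
  · intro h m hm
    by_contra h0
    exact hm (h m h0)

theorem finrank_monD {e : ℕ} (M : Set (Fin n →₀ ℕ)) (hM : ∀ m ∈ M, ∑ i, m i = e) :
    finrank D (monD D M) = M.ncard := by
  have hf : M.Finite := (deg_finite n e).subset hM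
  have h1 := hf.fintype
  rw [monD_eq_supported, LinearEquiv.finrank_eq (AddMonoidAlgebra.supportedEquivFinsupp M),
    Module.finrank_finsupp_self, Set.ncard_eq_toFinset_card', Set.toFinset_card]

theorem finite_monD {e : ℕ} (M : Set (Fin n →₀ ℕ)) (hM : ∀ m ∈ M, ∑ i, m i = e) :
    Module.Finite D (monD D M) := by
  have hf : M.Finite := (deg_finite n e).subset hM
  have h1 := hf.fintype
  rw [monD_eq_supported]
  exact Module.Finite.equiv (AddMonoidAlgebra.supportedEquivFinsupp (R := D) (S := D) M).symm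

/-- the part of weight `w - k` -/
noncomputable def degPart (D : Type*) [DivisionRing D] {n : ℕ} (B k w : ℕ) :
    YR D n →ₗ[D] YR D n where
  toFun u := AddMonoidAlgebra.ofCoeff (u.coeff.filter fun m => wt B m + k = w)
  map_add' u v := by
    apply AddMonoidAlgebra.coeff_injective
    exact Finsupp.filter_add
  map_smul' k u := by
    apply AddMonoidAlgebra.coeff_injective
    exact Finsupp.filter_smul

theorem degPart_coeff (B k w : ℕ) (u : YR D n) (m : Fin n →₀ ℕ) :
    (degPart D B k w u).coeff m = if wt B m + k = w then u.coeff m else 0 :=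
  Finsupp.filter_apply _ _ _

theorem deg_wt_lt (B : ℕ) (hB : 0 < B) {e : ℕ} {m : Fin n →₀ ℕ} (hm : ∑ i, m i = e) :
    wt B m < e * B ^ n + 1 := by
  rw [wt, ← hm, Finset.sum_mul]
  refine Nat.lt_succ_of_le (Finset.sum_le_sum fun i _ => ?_)
  exact Nat.mul_le_mul_left _ (Nat.pow_le_pow_right hB (le_of_lt i.2))

theorem deg_yr_ext {u v : YR D n} (h : ∀ m, u.coeff m = v.coeff m) : u = v :=
  AddMonoidAlgebra.coeff_injective (Finsupp.ext h)

theorem degCut_eq_bot {B e : ℕ} (hB : 0 < B) {V : Submodule D (YR D n)} (hV : V ≤ YD D n e) :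
    degCut V (degPart D B 0) (e * B ^ n + 1) = ⊥ := by
  rw [eq_bot_iff]
  rintro u ⟨hu, hu'⟩
  rw [Submodule.mem_bot]
  apply deg_yr_ext
  intro m
  rw [AddMonoidAlgebra.coeff_zero, Finsupp.zero_apply]
  by_contra h
  have h1 := hV hu m h
  have h2 := hu' (wt B m) (deg_wt_lt B hB h1)
  have h3 : (degPart D B 0 (wt B m) u).coeff m = 0 := by
    rw [h2, AddMonoidAlgebra.coeff_zero, Finsupp.zero_apply]
  rw [degPart_coeff, if_pos (by omega)] at h3
  exact h h3

theorem deg_lower {B w : ℕ} {V : Submodule D (YR D n)} {u : YR D n}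
    (hu : u ∈ degCut V (degPart D B 0) w) {m : Fin n →₀ ℕ} (hm : wt B m < w) :
    u.coeff m = 0 := by
  have h2 := hu.2 (wt B m) hm
  have h3 : (degPart D B 0 (wt B m) u).coeff m = 0 := by
    rw [h2, AddMonoidAlgebra.coeff_zero, Finsupp.zero_apply]
  rwa [degPart_coeff, if_pos (by omega)] at h3

theorem degPart_degPart (B k w w' : ℕ) (u : YR D n) :
    degPart D B k w' (degPart D B k w u) = if w' = w then degPart D B k w u else 0 := by
  apply deg_yr_ext
  intro m
  rw [degPart_coeff, degPart_coeff]
  by_cases h : w' = w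
  · rw [if_pos h, degPart_coeff, h]
    by_cases h1 : wt B m + k = w
    · rw [if_pos h1, if_pos h1]
    · rw [if_neg h1, if_neg h1]
  · rw [if_neg h, AddMonoidAlgebra.coeff_zero, Finsupp.zero_apply]
    by_cases h1 : wt B m + k = w'
    · rw [if_pos h1, if_neg (by omega)]
    · rw [if_neg h1]

theorem ncard_inm {B e : ℕ} (hB : e < B) {V : Submodule D (YR D n)} (hV : V ≤ YD D n e) :
    (inm B V).ncard = finrank D V := by
  have hM : ∀ m ∈ inm B V, ∑ i, m i = e := fun m hm => inm_subset hV hm
  have h0 : Module.Finite D (YD D n e) := by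
    have := finite_monD (D := D) {m : Fin n →₀ ℕ | ∑ i, m i = e} (fun m hm => hm)
    exact this
  have h1 : Module.Finite D V := Submodule.finiteDimensional_of_le hV
  have h2 := finite_monD (D := D) (inm B V) hM
  have hI : monD D (inm B V) ≤ YD D n e := fun u hu m hm => hM m (hu m hm)
  rw [← finrank_monD (D := D) (inm B V) hM]
  apply le_antisymm
  · refine finrank_le_of_degCut _ _ (degPart D B 0) _ (degCut_eq_bot (by omega) hI) ?_
    intro w
    rintro _ ⟨x, hx, rfl⟩
    by_cases hz : degPart D B 0 w x = 0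
    · rw [hz]
      exact Submodule.zero_mem _
    · have h3 : ∃ m, (degPart D B 0 w x).coeff m ≠ 0 := by
        by_contra hc
        push Not at hc
        apply hz
        apply deg_yr_ext
        intro m
        rw [hc m, AddMonoidAlgebra.coeff_zero, Finsupp.zero_apply]
      obtain ⟨m, hm⟩ := h3
      rw [degPart_coeff] at hm
      have hw : wt B m + 0 = w := by
        by_contra hc
        exact hm (if_neg hc)
      rw [if_pos hw] at hm
      have hmI : m ∈ inm B V := hx.1 m hm
      obtain ⟨u, hu, hu1, hu2⟩ := hmI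
      refine ⟨(x.coeff m * (u.coeff m)⁻¹) • u, ⟨V.smul_mem _ hu, ?_⟩, ?_⟩
      · intro j hj
        rw [map_smul]
        have : degPart D B 0 j u = 0 := by
          apply deg_yr_ext
          intro m'
          rw [degPart_coeff, AddMonoidAlgebra.coeff_zero, Finsupp.zero_apply]
          by_cases hc : wt B m' + 0 = j
          · rw [if_pos hc]
            exact hu2 m' (by omega)
          · rw [if_neg hc]
        rw [this, smul_zero]
      · rw [map_smul]
        apply deg_yr_ext
        intro m'
        rw [AddMonoidAlgebra.coeff_smul_apply, degPart_coeff, degPart_coeff]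
        by_cases hc : wt B m' + 0 = w
        · rw [if_pos hc, if_pos hc]
          by_cases hd : ∑ i, m' i = e
          · have : m' = m := wt_injOn hB hd (hI hx.1 m hm) (by omega)
            rw [this, smul_eq_mul, mul_assoc, inv_mul_cancel₀ hu1, mul_one]
          · have h4 : u.coeff m' = 0 := by
              by_contra h5
              exact hd (hV hu m' h5)
            have h6 : x.coeff m' = 0 := by
              by_contra h5
              exact hd (hI hx.1 m' h5)
            rw [h4, h6, smul_zero]
        · rw [if_neg hc, if_neg hc, smul_zero]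
  · refine finrank_le_of_degCut _ _ (degPart D B 0) _ (degCut_eq_bot (by omega) hV) ?_
    intro w
    rintro _ ⟨x, hx, rfl⟩
    refine ⟨degPart D B 0 w x, ⟨?_, ?_⟩, ?_⟩
    · intro m hm
      rw [degPart_coeff] at hm
      have hw : wt B m + 0 = w := by
        by_contra hc
        exact hm (if_neg hc)
      rw [if_pos hw] at hm
      exact ⟨x, hx.1, hm, fun m' hm' => deg_lower hx (by omega)⟩
    · intro j hj
      rw [degPart_degPart, if_neg (by omega)]
    · rw [degPart_degPart, if_pos rfl]

/-! ### Families -/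

theorem deg_wt_add (B : ℕ) (m m' : Fin n →₀ ℕ) : wt B (m + m') = wt B m + wt B m' := by
  rw [wt, wt, wt, ← Finset.sum_add_distrib]
  refine Finset.sum_congr rfl fun i _ => ?_
  rw [Finsupp.add_apply, add_mul]

theorem deg_wt_single (B : ℕ) (i : Fin n) : wt B (Finsupp.single i 1) = B ^ (i : ℕ) := by
  rw [wt, Finset.sum_eq_single i]
  · rw [Finsupp.single_eq_same, one_mul]
  · intro j _ hj
    rw [Finsupp.single_eq_of_ne hj, zero_mul]
  · intro h
    exact absurd (Finset.mem_univ i) h

theorem degPart_single (B k w : ℕ) (m : Fin n →₀ ℕ) (r : D) :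
    degPart D B k w (AddMonoidAlgebra.single m r) =
      if wt B m + k = w then AddMonoidAlgebra.single m r else 0 := by
  apply deg_yr_ext
  intro m'
  rw [degPart_coeff]
  by_cases h : wt B m + k = w
  · rw [if_pos h]
    by_cases h' : wt B m' + k = w
    · rw [if_pos h']
    · rw [if_neg h', AddMonoidAlgebra.coeff_single, Finsupp.single_eq_of_ne]
      intro hc
      exact h' (hc ▸ h)
  · rw [if_neg h, AddMonoidAlgebra.coeff_zero, Finsupp.zero_apply]
    by_cases h' : wt B m' + k = w
    · rw [if_pos h', AddMonoidAlgebra.coeff_single, Finsupp.single_eq_of_ne]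
      intro hc
      exact h (hc ▸ h')
    · rw [if_neg h']

theorem degPart_mul_zv (B k w : ℕ) (u : YR D n) (i : Fin n) :
    degPart D B k w (u * zv D n i) = degPart D B (k + B ^ (i : ℕ)) w u * zv D n i := by
  induction u using AddMonoidAlgebra.induction_linear with
  | zero => rw [zero_mul, map_zero, map_zero, zero_mul]
  | add a b ha hb => rw [add_mul, map_add, ha, hb, map_add, add_mul]
  | single m r =>
    rw [zv, AddMonoidAlgebra.single_mul_single, degPart_single, degPart_single, deg_wt_add,
      deg_wt_single]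
    by_cases h : wt B m + B ^ (i : ℕ) + k = w
    · rw [if_pos h, if_pos (by omega), AddMonoidAlgebra.single_mul_single]
    · rw [if_neg h, if_neg (by omega), zero_mul]

/-- the weight of a set -/
def degSet (B : ℕ) (s : Finset (Fin n)) : ℕ := ∑ i ∈ s, B ^ (i : ℕ)

theorem degSet_insert (B : ℕ) {s : Finset (Fin n)} {i : Fin n} (hi : i ∉ s) :
    degSet B (insert i s) = degSet B s + B ^ (i : ℕ) := by
  rw [degSet, Finset.sum_insert hi, add_comm]
  rfl

/-- the part of weight `w` of a family -/
noncomputable def degFam (D : Type*) [DivisionRing D] {n : ℕ} (B w : ℕ) :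
    (Finset (Fin n) → YR D n) →ₗ[D] (Finset (Fin n) → YR D n) where
  toFun c s := degPart D B (degSet B s) w (c s)
  map_add' a b := by
    funext s
    exact (degPart D B (degSet B s) w).map_add (a s) (b s)
  map_smul' k a := by
    funext s
    exact (degPart D B (degSet B s) w).map_smul k (a s)

theorem degFam_apply (B w : ℕ) (c : Finset (Fin n) → YR D n) (s : Finset (Fin n)) :
    degFam D B w c s = degPart D B (degSet B s) w (c s) := rfl

theorem kr_degFam (B w : ℕ) (c : Finset (Fin n) → YR D n) (t : Finset (Fin n)) :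
    kr (zv D n) (degFam D B w c) t = degPart D B (degSet B t) w (kr (zv D n) c t) := by
  rw [kr_apply, kr_apply, map_sum]
  refine Finset.sum_congr rfl fun i hi => ?_
  have hi' : i ∉ t := Finset.mem_compl.1 hi
  rw [degFam_apply, degSet_insert B hi']
  rcases neg_one_pow_eq_or (YR D n) (t.filter fun k => k < i).card with h | h
  · rw [h, one_mul, one_mul, degPart_mul_zv]
  · rw [h, neg_one_mul, neg_one_mul, map_neg, degPart_mul_zv]

theorem deg_finite_chD (p : ℕ) (W : Submodule D (YR D n)) [Module.Finite D W] :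
    Module.Finite D (chD n p W) := by
  let f : chD n p W →ₗ[D] (Finset (Fin n) → W) :=
    { toFun := fun c s => ⟨c.1 s, c.2.2 s⟩
      map_add' := fun _ _ => rfl
      map_smul' := fun _ _ => rfl }
  refine Module.Finite.of_injective f fun c c' h => ?_
  apply Subtype.ext
  funext s
  exact congrArg Subtype.val (congrFun h s)

/-- cycles survive the degeneration -/
theorem finrank_rd_inm {B d p : ℕ} (hB : d + 1 < B) {V : Submodule D (YR D n)}
    (hV : V ≤ YD D n (d + 1)) :
    finrank D (rd (zv D n) V (YD D n d) p) ≤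
      finrank D (rd (zv D n) (monD D (inm B V)) (YD D n d) p) := by
  have h0 : Module.Finite D (YD D n d) := by
    have := finite_monD (D := D) {m : Fin n →₀ ℕ | ∑ i, m i = d} (fun m hm => hm)
    exact this
  have h1 : Module.Finite D (chD n p (YD D n d)) := deg_finite_chD p _
  have h2 : ∀ U : Submodule D (YR D n), Module.Finite D (rd (zv D n) U (YD D n d) p) :=
    fun U => Submodule.finiteDimensional_of_le (S₂ := chD n p (YD D n d)) fun c hc => hc.1
  have h3 := h2 V
  have h4 := h2 (monD D (inm B V))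
  refine finrank_le_of_degCut _ _ (degFam D B)
    (d * B ^ n + 1 + degSet B (Finset.univ : Finset (Fin n))) ?_ ?_
  · rw [eq_bot_iff]
    rintro c ⟨hc, hc'⟩
    rw [Submodule.mem_bot]
    funext s
    apply deg_yr_ext
    intro m
    rw [Pi.zero_apply, AddMonoidAlgebra.coeff_zero, Finsupp.zero_apply]
    by_contra h
    have h5 := hc.1.2 s m h
    have h6 : degSet B s ≤ degSet B (Finset.univ : Finset (Fin n)) :=
      Finset.sum_le_sum_of_subset (Finset.subset_univ s)
    have h7 := deg_wt_lt B (by omega) h5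
    have h8 := hc' (wt B m + degSet B s) (by omega)
    have h9 : (degFam D B (wt B m + degSet B s) c s).coeff m = 0 := by
      rw [h8, Pi.zero_apply, AddMonoidAlgebra.coeff_zero, Finsupp.zero_apply]
    rw [degFam_apply, degPart_coeff, if_pos rfl] at h9
    exact h h9
  · intro w
    rintro _ ⟨c, hc, rfl⟩
    have hff : ∀ j, degFam D B j (degFam D B w c) = if j = w then degFam D B w c else 0 := by
      intro j
      funext s
      rw [degFam_apply, degFam_apply, degPart_degPart]
      by_cases hj : j = w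
      · rw [if_pos hj, if_pos hj]
        rfl
      · rw [if_neg hj, if_neg hj]
        rfl
    refine ⟨degFam D B w c, ⟨⟨⟨?_, ?_⟩, ?_⟩, ?_⟩, ?_⟩
    · intro s hs
      rw [degFam_apply, hc.1.1.1 s hs, map_zero]
    · intro s m hm
      rw [degFam_apply, degPart_coeff] at hm
      refine hc.1.1.2 s m fun h => hm ?_
      rw [h, ite_self]
    · intro t m hm
      rw [kr_degFam, degPart_coeff] at hm
      have hw : wt B m + degSet B t = w := by
        by_contra h
        exact hm (if_neg h)
      rw [if_pos hw] at hm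
      refine ⟨kr (zv D n) c t, hc.1.2 t, hm, fun m' hm' => ?_⟩
      have h5 := hc.2 (wt B m' + degSet B t) (by omega)
      have h6 := kr_degFam B (wt B m' + degSet B t) c t
      rw [h5] at h6
      have h7 : kr (zv D n) (0 : Finset (Fin n) → YR D n) = 0 := (krL D (zv D n)).map_zero
      rw [h7, Pi.zero_apply] at h6
      have h8 : (degPart D B (degSet B t) (wt B m' + degSet B t) (kr (zv D n) c t)).coeff m' = 0 := by
        rw [← h6, AddMonoidAlgebra.coeff_zero, Finsupp.zero_apply]
      rwa [degPart_coeff, if_pos rfl] at h8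
    · intro j hj
      rw [hff, if_neg (by omega)]
    · rw [hff, if_pos rfl]

/-! ### The last variable -/

theorem deg_sum_sn (m : Fin n →₀ ℕ) (i : ℕ) : ∑ j, sn m i j = ∑ j, m j + i := by
  rw [Fin.sum_univ_castSucc, sn_last]
  congr 1
  exact Finset.sum_congr rfl fun j _ => sn_castSucc m i j

theorem deg_wt_sn (B : ℕ) (m : Fin n →₀ ℕ) (i : ℕ) : wt B (sn m i) = wt B m + i * B ^ n := by
  rw [wt, wt, Fin.sum_univ_castSucc, sn_last, Fin.val_last]
  congr 1
  refine Finset.sum_congr rfl fun j _ => ?_
  rw [sn_castSucc, Fin.val_castSucc]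

theorem deg_sn_injective (i : ℕ) : Function.Injective fun m : Fin n →₀ ℕ => sn m i := by
  intro m m' h
  ext j
  have := DFunLike.congr_fun h j.castSucc
  simpa only [sn_castSucc] using this

theorem deg_exists_sn (m : Fin (n + 1) →₀ ℕ) : ∃ (m' : Fin n →₀ ℕ), m = sn m' (m (Fin.last n)) := by
  refine ⟨Finsupp.equivFunOnFinite.symm fun j => m j.castSucc, ?_⟩
  ext j
  refine Fin.lastCases ?_ (fun j => ?_) j
  · rw [sn_last]
  · rw [sn_castSucc]
    rfl

theorem deg_digits_lt {B : ℕ} {n : ℕ} (f : Fin n → ℕ) (hf : ∀ i, f i < B) :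
    ∑ i, f i * B ^ (i : ℕ) < B ^ n := by
  induction n with
  | zero => simp
  | succ n ih =>
    rw [Fin.sum_univ_castSucc, Fin.val_last]
    have h1 := ih (fun i => f i.castSucc) (fun i => hf _)
    have h2 : f (Fin.last n) + 1 ≤ B := hf _
    calc ∑ i : Fin n, f i.castSucc * B ^ ((i.castSucc : Fin (n + 1)) : ℕ) +
          f (Fin.last n) * B ^ n < B ^ n + f (Fin.last n) * B ^ n := by
            refine Nat.add_lt_add_right ?_ _
            simpa only [Fin.val_castSucc] using h1
      _ = (f (Fin.last n) + 1) * B ^ n := by ring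
      _ ≤ B * B ^ n := Nat.mul_le_mul_right _ h2
      _ = B ^ (n + 1) := by ring

/-- the coefficient of the zeroth power of the last variable -/
noncomputable def degRes (D : Type*) [DivisionRing D] (n : ℕ) : YR D (n + 1) →ₗ[D] YR D n where
  toFun u := AddMonoidAlgebra.ofCoeff
    (u.coeff.comapDomain (fun m => sn m 0) ((deg_sn_injective 0).injOn))
  map_add' u v := by
    apply deg_yr_ext
    intro m
    rfl
  map_smul' k u := by
    apply deg_yr_ext
    intro m
    rfl

theorem degRes_coeff (u : YR D (n + 1)) (m : Fin n →₀ ℕ) :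
    (degRes D n u).coeff m = u.coeff (sn m 0) := rfl

/-- the part of the lowest monomials without the last variable -/
theorem ncard_inm_zero {B e : ℕ} (hB : e < B) {V : Submodule D (YR D (n + 1))}
    (hV : V ≤ YD D (n + 1) e) (N : Set (Fin n →₀ ℕ))
    (hN : ∀ m ∈ N, ∃ u ∈ V, ∀ m' : Fin n →₀ ℕ, u.coeff (sn m' 0) = if m' = m then 1 else 0) :
    N.ncard ≤ {m : Fin n →₀ ℕ | sn m 0 ∈ inm B V}.ncard := by
  have hV' : V.map (degRes D n) ≤ YD D n e := by
    rintro _ ⟨u, hu, rfl⟩ m hm
    rw [degRes_coeff] at hm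
    have := hV hu _ hm
    rwa [deg_sum_sn, add_zero] at this
  have hS : {m : Fin n →₀ ℕ | sn m 0 ∈ inm B V} = inm B (V.map (degRes D n)) := by
    ext m
    constructor
    · rintro ⟨u, hu, hu1, hu2⟩
      refine ⟨degRes D n u, ⟨u, hu, rfl⟩, hu1, fun m' hm' => ?_⟩
      rw [degRes_coeff]
      apply hu2
      rw [deg_wt_sn, deg_wt_sn]
      omega
    · rintro ⟨_, ⟨u, hu, rfl⟩, hu1, hu2⟩
      rw [degRes_coeff] at hu1
      refine ⟨u, hu, hu1, fun m' hm' => ?_⟩
      obtain ⟨m'', hm''⟩ := deg_exists_sn m'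
      have hd : ∑ i, m i = e := by
        have := hV hu _ hu1
        rwa [deg_sum_sn, add_zero] at this
      have hlt : wt B m < B ^ n := deg_digits_lt _ fun i => lt_of_le_of_lt (deg_le_sum m i) (by omega)
      rw [hm'', deg_wt_sn, deg_wt_sn] at hm'
      have hz : m' (Fin.last n) = 0 := by
        by_contra hc
        have : 1 ≤ m' (Fin.last n) := Nat.one_le_iff_ne_zero.2 hc
        have h5 : 1 * B ^ n ≤ m' (Fin.last n) * B ^ n := Nat.mul_le_mul_right _ this
        omega
      rw [hz] at hm'' hm'
      rw [hm'']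
      have := hu2 m'' (by omega)
      rwa [degRes_coeff] at this
  have hNe : ∀ m ∈ N, ∑ i, m i = e := by
    intro m hm
    obtain ⟨u, hu, hu1⟩ := hN m hm
    have h1 : u.coeff (sn m 0) ≠ 0 := by
      rw [hu1, if_pos rfl]
      exact one_ne_zero
    have := hV hu _ h1
    rwa [deg_sum_sn, add_zero] at this
  have h0 : Module.Finite D (YD D n e) := by
    have := finite_monD (D := D) {m : Fin n →₀ ℕ | ∑ i, m i = e} (fun m hm => hm)
    exact this
  have h1 : Module.Finite D (V.map (degRes D n)) := Submodule.finiteDimensional_of_le hV'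
  rw [hS, ncard_inm hB hV', ← finrank_monD (D := D) N hNe]
  refine Submodule.finrank_mono ?_
  rw [monD_eq_supported, AddMonoidAlgebra.supported_eq_span_single, Submodule.span_le]
  rintro _ ⟨m, hm, rfl⟩
  obtain ⟨u, hu, hu1⟩ := hN m hm
  refine ⟨u, hu, ?_⟩
  apply deg_yr_ext
  intro m'
  rw [degRes_coeff, hu1, AddMonoidAlgebra.coeff_single, Finsupp.single_apply]
  by_cases h : m' = m
  · rw [if_pos h, if_pos h.symm]
  · rw [if_neg h, if_neg fun h' => h h'.symm]

end Vale.Agent.P200.M
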