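import Vale.Agent.P200.M.Defs

/-! The left linear bijection `z ^ m ↦ ξ ^ m`. -/

namespace Vale.Agent.P200.M

open MvPolynomial Module
open Vale.Agent.P200.B Vale.Agent.P200.G Vale.Agent.P200.L

variable {D : Type*} [DivisionRing D] {n : ℕ}

/-- the monomials in the forms `ξ_i` -/
noncomputable def xim (E : Fin n → Fin n → D) (m : Fin n →₀ ℕ) : YR D n :=
  (List.ofFn fun i => lin (E i) ^ m i).prod

/-- `z ^ m ↦ ξ ^ m`, left linear -/
noncomputable def theta (E : Fin n → Fin n → D) : YR D n →ₗ[D] YR D n where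
  toFun u := Finsupp.linearCombination D (xim E) u.coeff
  map_add' := fun u v => by rw [AddMonoidAlgebra.coeff_add, map_add]
  map_smul' := fun c u => by
    rw [AddMonoidAlgebra.coeff_smul, map_smul, RingHom.id_apply]

theorem theta_apply (E : Fin n → Fin n → D) (u : YR D n) :
    theta E u = Finsupp.linearCombination D (xim E) u.coeff := rfl

theorem theta_single (E : Fin n → Fin n → D) (m : Fin n →₀ ℕ) (c : D) :
    theta E (AddMonoidAlgebra.single m c) = c • xim E m := by
  rw [theta_apply, AddMonoidAlgebra.coeff_single, Finsupp.linearCombination_single]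

theorem m4_mem_YD {d : ℕ} {u : YR D n} :
    u ∈ YD D n d ↔ ∀ m, u.coeff m ≠ 0 → ∑ i, m i = d := Iff.rfl

theorem m4_single_mem {d : ℕ} {m : Fin n →₀ ℕ} (hm : ∑ i, m i = d) (c : D) :
    (AddMonoidAlgebra.single m c : YR D n) ∈ YD D n d := by
  intro m' hm'
  rw [AddMonoidAlgebra.coeff_single, Finsupp.single_apply] at hm'
  by_cases h : m = m'
  · rw [← h]
    exact hm
  · rw [if_neg h] at hm'
    exact absurd rfl hm'

theorem m4_deg_single (k : Fin n) : ∑ i, (Finsupp.single k 1 : Fin n →₀ ℕ) i = 1 := by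
  classical
  simp only [Finsupp.single_apply]
  simp

theorem m4_deg_add (a b : Fin n →₀ ℕ) : ∑ i, (a + b) i = ∑ i, a i + ∑ i, b i := by
  simp only [Finsupp.add_apply, Finset.sum_add_distrib]

theorem m4_sum_single (u : YR D n) :
    u = ∑ m ∈ u.coeff.support, AddMonoidAlgebra.single m (u.coeff m) :=
  (AddMonoidAlgebra.sum_coeff_single u).symm

theorem lin_mem (e : Fin n → D) : lin e ∈ YD D n 1 :=
  Submodule.sum_mem _ fun k _ => m4_single_mem (m4_deg_single k) _

theorem mul_mem_YD {a b : ℕ} {u v : YR D n} (hu : u ∈ YD D n a) (hv : v ∈ YD D n b) :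
    u * v ∈ YD D n (a + b) := by
  rw [AddMonoidAlgebra.mul_def]
  refine Submodule.sum_mem _ fun m₁ h₁ => Submodule.sum_mem _ fun m₂ h₂ => ?_
  refine m4_single_mem ?_ _
  rw [m4_deg_add, hu m₁ (Finsupp.mem_support_iff.1 h₁), hv m₂ (Finsupp.mem_support_iff.1 h₂)]

theorem m4_one_mem : (1 : YR D n) ∈ YD D n 0 := by
  rw [AddMonoidAlgebra.one_def]
  exact m4_single_mem (by simp) _

theorem m4_pow_mem {a : ℕ} {u : YR D n} (hu : u ∈ YD D n a) (k : ℕ) :
    u ^ k ∈ YD D n (k * a) := by
  induction k with
  | zero =>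
    rw [pow_zero, Nat.zero_mul]
    exact m4_one_mem
  | succ k ih =>
    rw [pow_succ, Nat.succ_mul]
    exact mul_mem_YD ih hu

theorem m4_prod_mem : ∀ (k : ℕ) (f : Fin k → YR D n) (a : Fin k → ℕ),
    (∀ i, f i ∈ YD D n (a i)) → (List.ofFn f).prod ∈ YD D n (∑ i, a i) := by
  intro k
  induction k with
  | zero =>
    intro f a _
    rw [List.ofFn_zero, List.prod_nil, Fin.sum_univ_zero]
    exact m4_one_mem
  | succ k ih =>
    intro f a h
    rw [List.ofFn_succ, List.prod_cons, Fin.sum_univ_succ]
    exact mul_mem_YD (h 0) (ih _ _ fun i => h i.succ)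

theorem xim_mem (E : Fin n → Fin n → D) (m : Fin n →₀ ℕ) : xim E m ∈ YD D n (∑ i, m i) := by
  refine m4_prod_mem n _ (fun i => m i) fun i => ?_
  have h := m4_pow_mem (lin_mem (E i)) (m i)
  rwa [Nat.mul_one] at h

theorem theta_mem (E : Fin n → Fin n → D) {d : ℕ} {u : YR D n} (hu : u ∈ YD D n d) :
    theta E u ∈ YD D n d := by
  rw [theta_apply, Finsupp.linearCombination_apply]
  refine Submodule.sum_mem _ fun m hm => Submodule.smul_mem _ _ ?_
  have h := xim_mem E m
  rwa [hu m (Finsupp.mem_support_iff.1 hm)] at h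

/-- the forms commute -/
theorem lin_comm (E : Fin n → Fin n → D)
    (hrow : ∀ i j, i ≠ j → ∀ k l, E i k * E j l = E j l * E i k) (i j : Fin n) :
    lin (E i) * lin (E j) = lin (E j) * lin (E i) := by
  by_cases h : i = j
  · rw [h]
  have h1 : ∀ a b : Fin n, lin (E a) * lin (E b) = ∑ k, ∑ l,
      AddMonoidAlgebra.single (Finsupp.single k 1 + Finsupp.single l 1) (E a k * E b l) := by
    intro a b
    unfold lin
    rw [Finset.sum_mul_sum]
    refine Finset.sum_congr rfl fun k _ => Finset.sum_congr rfl fun l _ => ?_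
    rw [AddMonoidAlgebra.single_mul_single]
  rw [h1, h1, Finset.sum_comm]
  refine Finset.sum_congr rfl fun k _ => Finset.sum_congr rfl fun l _ => ?_
  rw [add_comm, hrow i j h l k]

theorem m4_prod_ofFn {R : Type*} [Monoid R] (x : R) : ∀ (k : ℕ) (f g : Fin k → R) (i : Fin k),
    (∀ j, j ≠ i → g j = f j) → g i = f i * x → (∀ j, f j * x = x * f j) →
    (List.ofFn g).prod = (List.ofFn f).prod * x := by
  intro k
  induction k with
  | zero =>
    intro f g i
    exact i.elim0
  | succ k ih =>
    intro f g i hne heq hcomm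
    rw [List.ofFn_succ, List.ofFn_succ, List.prod_cons, List.prod_cons]
    rcases Fin.eq_zero_or_eq_succ i with h | ⟨i', h⟩
    · subst h
      have h1 : (fun j : Fin k => g j.succ) = fun j => f j.succ := by
        funext j
        exact hne _ (Fin.succ_ne_zero j)
      have h2 : Commute (List.ofFn fun j : Fin k => f j.succ).prod x := by
        apply Commute.list_prod_left
        intro y hy
        rw [List.mem_ofFn] at hy
        obtain ⟨j, rfl⟩ := hy
        exact hcomm _
      rw [h1, heq, mul_assoc, mul_assoc, h2.eq]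
    · subst h
      rw [hne 0 (Fin.succ_ne_zero i').symm, ih (fun j => f j.succ) (fun j => g j.succ) i'
        (fun j hj => hne _ fun h => hj (Fin.succ_injective _ h)) heq (fun j => hcomm _), mul_assoc]

theorem xim_add (E : Fin n → Fin n → D)
    (hrow : ∀ i j, i ≠ j → ∀ k l, E i k * E j l = E j l * E i k) (m : Fin n →₀ ℕ) (i : Fin n) :
    xim E (m + Finsupp.single i 1) = xim E m * lin (E i) := by
  refine m4_prod_ofFn (lin (E i)) n _ _ i (fun j hj => ?_) ?_ fun j => ?_
  · rw [Finsupp.add_apply, Finsupp.single_apply, if_neg (Ne.symm hj), add_zero]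
  · rw [Finsupp.add_apply, Finsupp.single_apply, if_pos rfl, pow_succ]
  · exact (Commute.pow_left (lin_comm E hrow j i) (m j)).eq

theorem theta_mul_zv (E : Fin n → Fin n → D)
    (hrow : ∀ i j, i ≠ j → ∀ k l, E i k * E j l = E j l * E i k) (u : YR D n) (i : Fin n) :
    theta E (u * zv D n i) = theta E u * lin (E i) := by
  induction u using AddMonoidAlgebra.induction_linear with
  | zero => rw [zero_mul, map_zero, zero_mul]
  | add a b ha hb => rw [add_mul, map_add, map_add, add_mul, ha, hb]
  | single m c =>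
    unfold zv
    rw [AddMonoidAlgebra.single_mul_single, mul_one, theta_single, theta_single,
      xim_add E hrow, smul_mul_assoc]

theorem m4_xim_zero (E : Fin n → Fin n → D) : xim E 0 = 1 := by
  unfold xim
  apply List.prod_eq_one
  intro y hy
  rw [List.mem_ofFn] at hy
  obtain ⟨j, rfl⟩ := hy
  rw [Finsupp.zero_apply, pow_zero]

/-- the variables are combinations of the forms `ξ_i` -/
theorem m4_zv_eq (E : Fin n → Fin n → D) (hind : LinearIndependent D E) (k : Fin n) :
    ∃ c : Fin n → D, ∀ (m : Fin n →₀ ℕ) (a : D),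
      (AddMonoidAlgebra.single m a : YR D n) * zv D n k =
        ∑ i, AddMonoidAlgebra.single m (a * c i) * lin (E i) := by
  classical
  have hspan : Submodule.span D (Set.range E) = ⊤ :=
    hind.span_eq_top_of_card_eq_finrank' (by rw [Module.finrank_fin_fun, Fintype.card_fin])
  have hk : (Pi.single k 1 : Fin n → D) ∈ Submodule.span D (Set.range E) := by
    rw [hspan]
    exact Submodule.mem_top
  rw [Submodule.mem_span_range_iff_exists_fun] at hk
  obtain ⟨c, hc⟩ := hk
  refine ⟨c, fun m a => ?_⟩
  have h1 : ∀ l, ∑ i, c i * E i l = if l = k then 1 else 0 := by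
    intro l
    have h2 := congrFun hc l
    rw [Finset.sum_apply, Pi.single_apply] at h2
    exact h2
  have h3 : ∀ i, (AddMonoidAlgebra.single m (a * c i) : YR D n) * lin (E i) =
      ∑ l, AddMonoidAlgebra.single (m + Finsupp.single l 1) (a * (c i * E i l)) := by
    intro i
    unfold lin
    rw [Finset.mul_sum]
    refine Finset.sum_congr rfl fun l _ => ?_
    rw [AddMonoidAlgebra.single_mul_single, mul_assoc]
  rw [Finset.sum_congr rfl fun i _ => h3 i, Finset.sum_comm]
  have h4 : ∀ l, ∑ i, (AddMonoidAlgebra.single (m + Finsupp.single l 1) (a * (c i * E i l)) :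
      YR D n) = AddMonoidAlgebra.single (m + Finsupp.single l 1) (if l = k then a else 0) := by
    intro l
    have h5 : (if l = k then a else 0) = ∑ i, a * (c i * E i l) := by
      rw [← Finset.mul_sum, h1]
      split_ifs
      · rw [mul_one]
      · rw [mul_zero]
    rw [h5]
    exact (map_sum (AddMonoidAlgebra.singleAddHom (m + Finsupp.single l 1)) _ _).symm
  rw [Finset.sum_congr rfl fun l _ => h4 l]
  rw [Finset.sum_eq_single k]
  · rw [if_pos rfl]
    unfold zv
    rw [AddMonoidAlgebra.single_mul_single, mul_one]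
  · intro l _ hl
    rw [if_neg hl, AddMonoidAlgebra.single_zero]
  · intro h
    exact absurd (Finset.mem_univ k) h

theorem m4_zv_mem (k : Fin n) : zv D n k ∈ YD D n 1 := m4_single_mem (m4_deg_single k) _

theorem m4_single_range (E : Fin n → Fin n → D)
    (hrow : ∀ i j, i ≠ j → ∀ k l, E i k * E j l = E j l * E i k)
    (hind : LinearIndependent D E) : ∀ (d : ℕ) (m : Fin n →₀ ℕ) (c : D), ∑ i, m i = d →
      (AddMonoidAlgebra.single m c : YR D n) ∈ (YD D n d).map (theta E) := by
  intro d
  induction d with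
  | zero =>
    intro m c hm
    have h0 : m = 0 := by
      ext i
      exact (Finset.sum_eq_zero_iff.1 hm) i (Finset.mem_univ i)
    subst h0
    refine ⟨AddMonoidAlgebra.single 0 c, m4_single_mem (by simp) c, ?_⟩
    rw [theta_single, m4_xim_zero, AddMonoidAlgebra.one_def, AddMonoidAlgebra.smul_single',
      mul_one]
  | succ d ih =>
    intro m c hm
    obtain ⟨k, hk⟩ : ∃ k, m k ≠ 0 := by
      by_contra hcon
      push Not at hcon
      rw [Finset.sum_eq_zero fun i _ => hcon i] at hm
      omega
    obtain ⟨m', hm'⟩ : ∃ m' : Fin n →₀ ℕ, m = m' + Finsupp.single k 1 := by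
      refine ⟨m - Finsupp.single k 1, ?_⟩
      rw [tsub_add_cancel_of_le]
      rw [Finsupp.single_le_iff]
      omega
    have hd : ∑ i, m' i = d := by
      rw [hm', m4_deg_add, m4_deg_single] at hm
      omega
    have h1 : (AddMonoidAlgebra.single m c : YR D n) =
        AddMonoidAlgebra.single m' c * zv D n k := by
      unfold zv
      rw [AddMonoidAlgebra.single_mul_single, mul_one, hm']
    obtain ⟨a, ha⟩ := m4_zv_eq E hind k
    rw [h1, ha]
    refine Submodule.sum_mem _ fun i _ => ?_
    obtain ⟨w, hw, hw'⟩ := ih m' (c * a i) hd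
    refine ⟨w * zv D n i, mul_mem_YD hw (m4_zv_mem i), ?_⟩
    rw [theta_mul_zv E hrow, hw']

theorem map_theta (E : Fin n → Fin n → D)
    (hrow : ∀ i j, i ≠ j → ∀ k l, E i k * E j l = E j l * E i k)
    (hind : LinearIndependent D E) (d : ℕ) : (YD D n d).map (theta E) = YD D n d := by
  apply le_antisymm
  · rintro _ ⟨u, hu, rfl⟩
    exact theta_mem E hu
  · intro u hu
    rw [m4_sum_single u]
    refine Submodule.sum_mem _ fun m hm => ?_
    exact m4_single_range E hrow hind d m _ (hu m (Finsupp.mem_support_iff.1 hm))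

/-- polynomials of degree at most `N` -/
def m4W (D : Type*) [DivisionRing D] (n N : ℕ) : Submodule D (YR D n) where
  carrier := {u | ∀ m, u.coeff m ≠ 0 → ∑ i, m i ≤ N}
  add_mem' := by
    intro a b ha hb m hm
    by_contra h
    have h1 : a.coeff m = 0 := by
      by_contra h'
      exact h (ha m h')
    have h2 : b.coeff m = 0 := by
      by_contra h'
      exact h (hb m h')
    apply hm
    rw [AddMonoidAlgebra.coeff_add, Finsupp.add_apply, h1, h2, add_zero]
  zero_mem' := by
    intro m hm
    exact absurd (by rw [AddMonoidAlgebra.coeff_zero, Finsupp.zero_apply]) hm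
  smul_mem' := by
    intro k a ha m hm
    refine ha m fun h => hm ?_
    rw [AddMonoidAlgebra.coeff_smul_apply, h, smul_zero]

theorem m4_mem_W {N : ℕ} {u : YR D n} :
    u ∈ m4W D n N ↔ ∀ m, u.coeff m ≠ 0 → ∑ i, m i ≤ N := Iff.rfl

theorem m4_YD_le {d N : ℕ} (h : d ≤ N) : YD D n d ≤ m4W D n N := by
  intro u hu m hm
  rw [hu m hm]
  exact h

theorem m4_exists_W (u : YR D n) : ∃ N, u ∈ m4W D n N := by
  refine ⟨∑ m ∈ u.coeff.support, ∑ i, m i, fun m hm => ?_⟩
  exact Finset.single_le_sum (f := fun m : Fin n →₀ ℕ => ∑ i, m i) (fun _ _ => Nat.zero_le _)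
    (Finsupp.mem_support_iff.2 hm)

theorem m4_finite_W (N : ℕ) : Module.Finite D (m4W D n N) := by
  have hfin : {m : Fin n →₀ ℕ | ∑ i, m i ≤ N}.Finite := by
    refine (Set.finite_Iic (Finsupp.equivFunOnFinite.symm fun _ => N)).subset fun m hm i => ?_
    refine le_trans ?_ hm
    exact Finset.single_le_sum (f := fun i => m i) (fun _ _ => Nat.zero_le _) (Finset.mem_univ i)
  have hspan : m4W D n N ≤ Submodule.span D
      ((fun m : Fin n →₀ ℕ => (AddMonoidAlgebra.single m 1 : YR D n)) ''
        {m : Fin n →₀ ℕ | ∑ i, m i ≤ N}) := by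
    intro u hu
    rw [m4_sum_single u]
    refine Submodule.sum_mem _ fun m hm => ?_
    have h1 : (AddMonoidAlgebra.single m (u.coeff m) : YR D n) =
        u.coeff m • AddMonoidAlgebra.single m 1 := by
      rw [AddMonoidAlgebra.smul_single', mul_one]
    rw [h1]
    refine Submodule.smul_mem _ _ (Submodule.subset_span ⟨m, ?_, rfl⟩)
    exact hu m (Finsupp.mem_support_iff.1 hm)
  have hf := FiniteDimensional.span_of_finite D (hfin.image
    (fun m : Fin n →₀ ℕ => (AddMonoidAlgebra.single m 1 : YR D n)))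
  exact Submodule.finiteDimensional_of_le hspan

theorem theta_injective (E : Fin n → Fin n → D)
    (hrow : ∀ i j, i ≠ j → ∀ k l, E i k * E j l = E j l * E i k)
    (hind : LinearIndependent D E) : Function.Injective (theta E) := by
  rw [← LinearMap.ker_eq_bot, LinearMap.ker_eq_bot']
  intro u hu
  obtain ⟨N, hN⟩ := m4_exists_W u
  have hmaps : ∀ w ∈ m4W D n N, theta E w ∈ m4W D n N := by
    intro w hw
    rw [m4_sum_single w, map_sum]
    refine Submodule.sum_mem _ fun m hm => ?_
    exact m4_YD_le (hw m (Finsupp.mem_support_iff.1 hm))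
      (theta_mem E (m4_single_mem rfl _))
  have hsurj : Function.Surjective ((theta E).restrict hmaps) := by
    rintro ⟨w, hw⟩
    have h1 : w ∈ (m4W D n N).map (theta E) := by
      rw [m4_sum_single w]
      refine Submodule.sum_mem _ fun m hm => ?_
      exact Submodule.map_mono (m4_YD_le (hw m (Finsupp.mem_support_iff.1 hm)))
        (m4_single_range E hrow hind _ m _ rfl)
    obtain ⟨y, hy, hy'⟩ := h1
    exact ⟨⟨y, hy⟩, Subtype.ext hy'⟩
  have hfin := m4_finite_W (D := D) (n := n) N
  have hinj : Function.Injective ((theta E).restrict hmaps) :=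
    LinearMap.injective_iff_surjective.2 hsurj
  have h2 : (⟨u, hN⟩ : m4W D n N) = 0 := by
    apply hinj
    rw [map_zero]
    exact Subtype.ext hu
  exact congrArg Subtype.val h2

theorem finrank_comap_theta (E : Fin n → Fin n → D)
    (hrow : ∀ i j, i ≠ j → ∀ k l, E i k * E j l = E j l * E i k)
    (hind : LinearIndependent D E) {d : ℕ} (V : Submodule D (YR D n)) (hV : V ≤ YD D n d) :
    V.comap (theta E) ≤ YD D n d ∧ finrank D (V.comap (theta E)) = finrank D V := by
  have hinj := theta_injective E hrow hind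
  constructor
  · intro u hu
    have h1 : theta E u ∈ YD D n d := hV hu
    rw [← map_theta E hrow hind d] at h1
    obtain ⟨w, hw, hw'⟩ := h1
    rwa [← hinj hw']
  · have hle : V ≤ LinearMap.range (theta E) := by
      intro v hv
      have h1 := hV hv
      rw [← map_theta E hrow hind d] at h1
      obtain ⟨w, _, hw'⟩ := h1
      exact ⟨w, hw'⟩
    exact (Submodule.comap_equiv_self_of_inj_of_le hinj hle).finrank_eq

theorem finrank_rd_theta (E : Fin n → Fin n → D)
    (hrow : ∀ i j, i ≠ j → ∀ k l, E i k * E j l = E j l * E i k)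
    (hind : LinearIndependent D E) {d p : ℕ} (V : Submodule D (YR D n)) :
    finrank D (rd (fun i => lin (E i)) V (YD D n d) p) =
      finrank D (rd (zv D n) (V.comap (theta E)) (YD D n d) p) := by
  have hinj := theta_injective E hrow hind
  have hkr : ∀ (c : Finset (Fin n) → YR D n) (t : Finset (Fin n)),
      kr (fun i => lin (E i)) (fun s => theta E (c s)) t = theta E (kr (zv D n) c t) := by
    intro c t
    rw [kr_apply, kr_apply, map_sum]
    refine Finset.sum_congr rfl fun i _ => ?_
    rcases neg_one_pow_eq_or (YR D n) (t.filter fun k => k < i).card with h | h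
    · rw [h, one_mul, one_mul, theta_mul_zv E hrow]
    · rw [h, neg_one_mul, neg_one_mul, map_neg, theta_mul_zv E hrow]
  have hYD : ∀ u, theta E u ∈ YD D n d ↔ u ∈ YD D n d :=
    fun u => ⟨fun h => (finrank_comap_theta E hrow hind (YD D n d) le_rfl).1 h, theta_mem E⟩
  obtain ⟨Φ, hΦ⟩ : ∃ Φ : (Finset (Fin n) → YR D n) →ₗ[D] (Finset (Fin n) → YR D n),
      ∀ c, Φ c = fun s => theta E (c s) :=
    ⟨(theta E).compLeft (Finset (Fin n)), fun c => rfl⟩
  have hΦinj : Function.Injective Φ := by
    intro a b hab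
    rw [hΦ, hΦ] at hab
    funext s
    exact hinj (congrFun hab s)
  have hcomap : (rd (fun i => lin (E i)) V (YD D n d) p).comap Φ =
      rd (zv D n) (V.comap (theta E)) (YD D n d) p := by
    ext c
    rw [Submodule.mem_comap, hΦ, mem_rd, mem_rd, mem_chD, mem_chD]
    have e1 : (∀ s : Finset (Fin n), s.card ≠ p → theta E (c s) = 0) ↔
        ∀ s : Finset (Fin n), s.card ≠ p → c s = 0 :=
      forall_congr' fun s => imp_congr_right fun _ => by
        rw [← map_zero (theta E)]
        exact hinj.eq_iff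
    have e2 : (∀ s, theta E (c s) ∈ YD D n d) ↔ ∀ s, c s ∈ YD D n d :=
      forall_congr' fun s => hYD _
    have e3 : (∀ t, kr (fun i => lin (E i)) (fun s => theta E (c s)) t ∈ V) ↔
        ∀ t, kr (zv D n) c t ∈ V.comap (theta E) :=
      forall_congr' fun t => by rw [hkr, Submodule.mem_comap]
    rw [e1, e2, e3]
  have hle : rd (fun i => lin (E i)) V (YD D n d) p ≤ LinearMap.range Φ := by
    intro c hc
    have h1 : ∀ s, ∃ w, theta E w = c s := by
      intro s
      have h2 := hc.1.2 s
      rw [← map_theta E hrow hind d] at h2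
      obtain ⟨w, _, hw⟩ := h2
      exact ⟨w, hw⟩
    choose w hw using h1
    refine ⟨w, ?_⟩
    rw [hΦ]
    funext s
    exact hw s
  rw [← hcomap]
  exact (Submodule.comap_equiv_self_of_inj_of_le hΦinj hle).finrank_eq.symm

end Vale.Agent.P200.M
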