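import Vale.Agent.P200.M.Defs
import Vale.Agent.P200.L.BC

/-! Extension of coefficients to a division ring does not change the number of cycles. -/

namespace Vale.Agent.P200.M

open MvPolynomial Module
open Vale.Agent.P200.B Vale.Agent.P200.G Vale.Agent.P200.L

variable {K D : Type*} [Field K] [DivisionRing D] [Algebra K D] {n : ℕ}

theorem bD_coeff (v : MvPolynomial (Fin n) K) (m : Fin n →₀ ℕ) :
    (bD D v).coeff m = algebraMap K D (MvPolynomial.coeff m v) :=
  AddMonoidAlgebra.coeff_mapRingHom _ _ _

theorem bD_injective : Function.Injective (bD D : MvPolynomial (Fin n) K →+* YR D n) := by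
  intro a b h
  refine MvPolynomial.ext _ _ fun m => ?_
  have h1 : (bD D a).coeff m = (bD D b).coeff m := by rw [h]
  rw [bD_coeff, bD_coeff] at h1
  exact (algebraMap K D).injective h1

theorem bD_smul (k : K) (v : MvPolynomial (Fin n) K) :
    bD D (k • v) = algebraMap K D k • bD D v := by
  ext m
  rw [bD_coeff, AddMonoidAlgebra.coeff_smul_apply, bD_coeff, MvPolynomial.coeff_smul, smul_eq_mul,
    smul_eq_mul, map_mul]

theorem bD_monomial (m : Fin n →₀ ℕ) (a : K) :
    bD D (monomial m a : MvPolynomial (Fin n) K) =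
      AddMonoidAlgebra.single m (algebraMap K D a) :=
  AddMonoidAlgebra.mapRingHom_single _ _ _

theorem bD_X (i : Fin n) : bD D (X i : MvPolynomial (Fin n) K) = zv D n i := by
  have h : bD D (X i : MvPolynomial (Fin n) K) =
      AddMonoidAlgebra.single (Finsupp.single i 1) (algebraMap K D 1) := bD_monomial _ _
  rw [h, map_one]
  rfl

/-- apply a linear functional to all coefficients -/
noncomputable def m1c (φ : D →ₗ[K] K) (u : YR D n) : MvPolynomial (Fin n) K :=
  AddMonoidAlgebra.map φ.toAddMonoidHom u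

theorem m1c_coeff (φ : D →ₗ[K] K) (u : YR D n) (m : Fin n →₀ ℕ) :
    MvPolynomial.coeff m (m1c φ u) = φ (u.coeff m) := rfl

theorem m1c_zero (φ : D →ₗ[K] K) : m1c φ (0 : YR D n) = 0 := AddMonoidAlgebra.map_zero _

theorem m1c_add (φ : D →ₗ[K] K) (u v : YR D n) : m1c φ (u + v) = m1c φ u + m1c φ v :=
  AddMonoidAlgebra.map_add _ _ _

theorem m1c_sum {ι : Type*} (φ : D →ₗ[K] K) (s : Finset ι) (u : ι → YR D n) :
    m1c φ (∑ i ∈ s, u i) = ∑ i ∈ s, m1c φ (u i) :=
  AddMonoidAlgebra.map_sum _ _ _

theorem m1c_smul_bD (φ : D →ₗ[K] K) (c : D) (v : MvPolynomial (Fin n) K) :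
    m1c φ (c • bD D v) = φ c • v := by
  refine MvPolynomial.ext _ _ fun m => ?_
  rw [m1c_coeff, AddMonoidAlgebra.coeff_smul_apply, bD_coeff, MvPolynomial.coeff_smul, smul_eq_mul,
    smul_eq_mul, ← Algebra.commutes, ← Algebra.smul_def, map_smul, smul_eq_mul, mul_comm]

theorem m1c_smul (φ : D →ₗ[K] K) (c : D) (u : YR D n) :
    m1c φ (c • u) = m1c (φ ∘ₗ LinearMap.mulLeft K c) u := by
  refine MvPolynomial.ext _ _ fun m => ?_
  rw [m1c_coeff, m1c_coeff, AddMonoidAlgebra.coeff_smul_apply]
  rfl

theorem m1c_mul_bD (φ : D →ₗ[K] K) (u : YR D n) (v : MvPolynomial (Fin n) K) :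
    m1c φ (u * bD D v) = m1c φ u * v := by
  induction u using AddMonoidAlgebra.induction_linear with
  | zero => rw [zero_mul, m1c_zero, zero_mul]
  | add a b ha hb => rw [add_mul, m1c_add, ha, hb, m1c_add, add_mul]
  | single m c =>
    induction v using MvPolynomial.induction_on' with
    | add p q hp hq => rw [map_add, mul_add, m1c_add, hp, hq, mul_add]
    | monomial m' a =>
      have h1 : ∀ (k : Fin n →₀ ℕ) (c : D), m1c φ (AddMonoidAlgebra.single k c : YR D n) =
          monomial k (φ c) := fun k c => AddMonoidAlgebra.map_single _ _ _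
      rw [bD_monomial, AddMonoidAlgebra.single_mul_single, h1, h1, monomial_mul, ←
        Algebra.commutes, ← Algebra.smul_def, map_smul, smul_eq_mul, mul_comm]

/-- expansion in a basis, for all large finite sets -/
theorem m1c_expand {ι : Type*} (B : Module.Basis ι K D) (u : YR D n) :
    ∃ T : Finset ι, ∀ T' : Finset ι, T ⊆ T' →
      u = ∑ α ∈ T', B α • bD D (m1c (B.coord α) u) := by
  classical
  refine ⟨u.coeff.support.biUnion fun m => (B.repr (u.coeff m)).support, ?_⟩
  intro T' hT'
  ext m
  rw [AddMonoidAlgebra.coeff_sum, Finsupp.finsetSum_apply]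
  have h1 : ∀ α, (B α • bD D (m1c (B.coord α) u)).coeff m = (B.repr (u.coeff m) α) • B α := by
    intro α
    rw [AddMonoidAlgebra.coeff_smul_apply, bD_coeff, m1c_coeff, smul_eq_mul, ← Algebra.commutes,
      ← Algebra.smul_def, Module.Basis.coord_apply]
  rw [Finset.sum_congr rfl fun α _ => h1 α]
  by_cases hm : m ∈ u.coeff.support
  · conv_lhs => rw [← B.linearCombination_repr (u.coeff m), Finsupp.linearCombination_apply,
      Finsupp.sum]
    refine Finset.sum_subset ((Finset.subset_biUnion_of_mem
      (fun m => (B.repr (u.coeff m)).support) hm).trans hT') fun α _ hα => ?_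
    rw [Finsupp.notMem_support_iff.1 hα, zero_smul]
  · rw [Finsupp.notMem_support_iff.1 hm, map_zero]
    simp

theorem m1c_mem {V : Submodule K (MvPolynomial (Fin n) K)} {u : YR D n} (hu : u ∈ VD D V) :
    ∀ l : D →ₗ[K] K, m1c l u ∈ V := by
  unfold VD at hu
  induction hu using Submodule.span_induction with
  | mem x hx =>
    obtain ⟨v, hv, rfl⟩ := hx
    intro l
    have h := m1c_smul_bD l (1 : D) v
    rw [one_smul] at h
    rw [h]
    exact V.smul_mem _ hv
  | zero =>
    intro l
    rw [m1c_zero]
    exact V.zero_mem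
  | add x y _ _ hx hy =>
    intro l
    rw [m1c_add]
    exact V.add_mem (hx l) (hy l)
  | smul c x _ hx =>
    intro l
    rw [m1c_smul]
    exact hx _

theorem mem_VD_of_m1c {ι : Type*} (B : Module.Basis ι K D)
    {V : Submodule K (MvPolynomial (Fin n) K)} {u : YR D n}
    (h : ∀ α, m1c (B.coord α) u ∈ V) : u ∈ VD D V := by
  obtain ⟨T, hT⟩ := m1c_expand B u
  rw [hT T (Finset.Subset.refl T)]
  exact Submodule.sum_mem _ fun α _ => Submodule.smul_mem _ _
    (Submodule.subset_span ⟨_, h α, rfl⟩)

theorem mem_VD_iff_m1c {V : Submodule K (MvPolynomial (Fin n) K)} {u : YR D n} :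
    u ∈ VD D V ↔ ∀ l : D →ₗ[K] K, m1c l u ∈ V :=
  ⟨m1c_mem, fun h => mem_VD_of_m1c (Module.Basis.ofVectorSpace K D) fun _ => h _⟩

/-- membership in `VD` is tested by the `K`-linear functionals of `D` (finite support!) -/
theorem mem_VD_iff (V : Submodule K (MvPolynomial (Fin n) K)) (u : YR D n) :
    u ∈ VD D V ↔ ∀ l : D →ₗ[K] K, ∃ v ∈ V, ∀ m, MvPolynomial.coeff m v = l (u.coeff m) := by
  rw [mem_VD_iff_m1c]
  refine forall_congr' fun l => ?_
  constructor
  · intro h
    exact ⟨_, h, fun m => m1c_coeff l u m⟩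
  · rintro ⟨v, hv, h⟩
    have h1 : m1c l u = v := by
      refine MvPolynomial.ext _ _ fun m => ?_
      rw [m1c_coeff, h]
    rw [h1]
    exact hv

theorem mul_single_mem_VD (V : Submodule K (MvPolynomial (Fin n) K)) {u : YR D n}
    (hu : u ∈ VD D V) (c : D) : u * AddMonoidAlgebra.single 0 c ∈ VD D V := by
  rw [mem_VD_iff_m1c] at hu ⊢
  intro l
  have h1 : m1c l (u * AddMonoidAlgebra.single 0 c) = m1c (l ∘ₗ LinearMap.mulRight K c) u := by
    refine MvPolynomial.ext _ _ fun m => ?_
    rw [m1c_coeff, m1c_coeff, AddMonoidAlgebra.coeff_mul_single_zero]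
    rfl
  rw [h1]
  exact hu _

theorem VD_mono {V W : Submodule K (MvPolynomial (Fin n) K)} (h : V ≤ W) :
    VD D V ≤ VD D W :=
  Submodule.span_mono (Set.image_mono h)

theorem functionals_separate {c : D} (h : ∀ φ : D →ₗ[K] K, φ c = 0) : c = 0 := by
  have B := Module.Basis.ofVectorSpace K D
  apply B.ext_elem
  intro α
  rw [map_zero, Finsupp.zero_apply]
  exact h (B.coord α)

theorem VD_eq_span {ι : Type*} [Fintype ι] (V : Submodule K (MvPolynomial (Fin n) K))
    (b : Module.Basis ι K V) :
    VD D V = Submodule.span D (Set.range fun i =>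
      bD D (b i : MvPolynomial (Fin n) K)) := by
  apply le_antisymm
  · unfold VD
    rw [Submodule.span_le]
    rintro _ ⟨v, hv, rfl⟩
    have h4 := congrArg V.subtype (b.sum_repr ⟨v, hv⟩)
    rw [map_sum] at h4
    have h5 : v = ∑ i, b.repr ⟨v, hv⟩ i • (b i : MvPolynomial (Fin n) K) := h4.symm
    have h6 : bD D v = ∑ i, algebraMap K D (b.repr ⟨v, hv⟩ i) •
        bD D (b i : MvPolynomial (Fin n) K) := by
      conv_lhs => rw [h5]
      rw [map_sum]
      exact Finset.sum_congr rfl fun i _ => bD_smul _ _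
    rw [h6]
    exact Submodule.sum_mem _ fun i _ => Submodule.smul_mem _ _
      (Submodule.subset_span ⟨i, rfl⟩)
  · rw [Submodule.span_le]
    rintro _ ⟨i, rfl⟩
    exact Submodule.subset_span ⟨_, (b i).2, rfl⟩

theorem finrank_VD (V : Submodule K (MvPolynomial (Fin n) K)) [Module.Finite K V] :
    finrank D (VD D V) = finrank K V := by
  classical
  let b := Module.finBasis K V
  have hb : LinearIndependent K (fun i => (b i : MvPolynomial (Fin n) K)) :=
    b.linearIndependent.map' V.subtype V.ker_subtype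
  have hw : LinearIndependent D (fun i => bD D (b i : MvPolynomial (Fin n) K)) := by
    rw [Fintype.linearIndependent_iff]
    intro c hc i
    refine functionals_separate (K := K) fun φ => ?_
    have h3 : ∑ i, φ (c i) • (b i : MvPolynomial (Fin n) K) = 0 := by
      have h2 := congrArg (m1c φ) hc
      rw [m1c_sum, m1c_zero] at h2
      rw [← h2]
      exact Finset.sum_congr rfl fun i _ => (m1c_smul_bD _ _ _).symm
    exact Fintype.linearIndependent_iff.1 hb _ h3 i
  rw [VD_eq_span V b, finrank_span_eq_card hw, Fintype.card_fin]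

theorem VD_restrictSupport (M : Set (Fin n →₀ ℕ)) :
    VD D (restrictSupport K M) = monD D M := by
  ext u
  rw [mem_VD_iff_m1c]
  constructor
  · intro h m hm
    by_contra hM
    refine hm (functionals_separate (K := K) fun φ => ?_)
    by_contra hφ
    refine hM ((mem_restrictSupport_iff.1 (h φ)) m ?_)
    rw [m1c_coeff]
    exact hφ
  · intro h l
    refine mem_restrictSupport_iff.2 fun m hm => ?_
    rw [m1c_coeff] at hm
    refine h m fun h0 => hm ?_
    rw [h0, map_zero]

theorem isHomogeneous_iff_sum {v : MvPolynomial (Fin n) K} {d : ℕ} :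
    v.IsHomogeneous d ↔ ∀ m, MvPolynomial.coeff m v ≠ 0 → ∑ i, m i = d := by
  have h1 : ∀ m : Fin n →₀ ℕ, Finsupp.weight (1 : Fin n → ℕ) m = ∑ i, m i := by
    intro m
    have h2 := congrArg (fun f : (Fin n →₀ ℕ) →+ ℕ => f m)
      (Finsupp.degree_eq_weight_one (σ := Fin n) (R := ℕ))
    exact h2.symm.trans (Finsupp.degree_eq_sum m)
  constructor
  · intro h m hm
    rw [← h1]
    exact h hm
  · intro h m hm
    rw [h1]
    exact h m hm

theorem VD_homogeneous (d : ℕ) : VD D (homogeneousSubmodule (Fin n) K d) = YD D n d := by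
  ext u
  rw [mem_VD_iff_m1c]
  constructor
  · intro h m hm
    by_contra hM
    refine hm (functionals_separate (K := K) fun φ => ?_)
    by_contra hφ
    refine hM ((isHomogeneous_iff_sum.1 (h φ)) m ?_)
    rw [m1c_coeff]
    exact hφ
  · intro h l
    show (m1c l u).IsHomogeneous d
    rw [isHomogeneous_iff_sum]
    intro m hm
    rw [m1c_coeff] at hm
    refine h m fun h0 => hm ?_
    rw [h0, map_zero]

instance finite_YD (d : ℕ) : Module.Finite D (YD D n d) := by
  classical
  let f : YD D n d →ₗ[D] (Finset.finsuppAntidiag (Finset.univ : Finset (Fin n)) d → D) :=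
    { toFun := fun u m => (u : YR D n).coeff m.1
      map_add' := fun u v => rfl
      map_smul' := fun c u => rfl }
  refine Module.Finite.of_injective f fun u v huv => ?_
  apply Subtype.ext
  ext m
  by_cases hm : ∑ i, m i = d
  · have hm' : m ∈ Finset.finsuppAntidiag (Finset.univ : Finset (Fin n)) d :=
      Finset.mem_finsuppAntidiag.2 ⟨hm, Finset.subset_univ _⟩
    exact congrFun huv ⟨m, hm'⟩
  · have h1 : ∀ w : YD D n d, (w : YR D n).coeff m = 0 := by
      intro w
      by_contra h
      exact hm (w.2 m h)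
    rw [h1, h1]

theorem finrank_YD (d : ℕ) :
    finrank D (YD D n d) = finrank K (homogeneousSubmodule (Fin n) K d) := by
  rw [← VD_homogeneous (K := K), finrank_VD]

/-- entrywise extension of coefficients commutes with the differential -/
theorem kr_bD (c : Finset (Fin n) → MvPolynomial (Fin n) K) (t : Finset (Fin n)) :
    kr (zv D n) (fun s => bD D (c s)) t = bD D (kd X c t) := by
  rw [kr_apply, kd_apply, map_sum]
  refine Finset.sum_congr rfl fun i _ => ?_
  rw [map_mul, map_pow, map_neg, map_one, map_mul, ← bD_X (K := K), ← map_mul, ← map_mul,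
    mul_comm (c (insert i t))]

/-- coordinates of cycles -/
theorem kd_m1c (φ : D →ₗ[K] K) (c : Finset (Fin n) → YR D n) (t : Finset (Fin n)) :
    kd X (fun s => m1c φ (c s)) t = m1c φ (kr (zv D n) c t) := by
  rw [kr_apply, kd_apply, m1c_sum]
  refine Finset.sum_congr rfl fun i _ => ?_
  have h2 : m1c φ (c (insert i t) * zv D n i) = m1c φ (c (insert i t)) * X i := by
    rw [← bD_X (K := K), m1c_mul_bD]
  have h3 : ∀ u : YR D n, m1c φ (-u) = - m1c φ u := fun u => by
    rw [eq_neg_iff_add_eq_zero, ← m1c_add, neg_add_cancel, m1c_zero]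
  rcases Nat.even_or_odd (t.filter fun k => k < i).card with h | h
  · rw [h.neg_one_pow, h.neg_one_pow, one_mul, one_mul, h2, mul_comm]
  · rw [h.neg_one_pow, h.neg_one_pow, neg_one_mul, neg_one_mul, h3, h2, mul_comm]

/-- the number of cycles -/
theorem finrank_rd_VD (V W : Submodule K (MvPolynomial (Fin n) K)) [Module.Finite K W] (p : ℕ) :
    finrank D (rd (zv D n) (VD D V) (VD D W) p) = finrank K (rc X V W p) := by
  classical
  set Z := rc X V W p with hZ
  let b := Module.finBasis K Z
  let w : Fin (finrank K Z) → Finset (Fin n) → YR D n := fun i s =>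
    bD D ((b i : Finset (Fin n) → MvPolynomial (Fin n) K) s)
  have hb : LinearIndependent K
      (fun i => (b i : Finset (Fin n) → MvPolynomial (Fin n) K)) :=
    b.linearIndependent.map' Z.subtype Z.ker_subtype
  have hw : LinearIndependent D w := by
    rw [Fintype.linearIndependent_iff]
    intro c hc i
    refine functionals_separate (K := K) fun φ => ?_
    have h3 : ∑ i, φ (c i) • (b i : Finset (Fin n) → MvPolynomial (Fin n) K) = 0 := by
      funext s
      have h2 := congrArg (m1c φ) (congrFun hc s)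
      rw [Finset.sum_apply, Pi.zero_apply, m1c_sum, m1c_zero] at h2
      rw [Finset.sum_apply, Pi.zero_apply, ← h2]
      exact Finset.sum_congr rfl fun i _ => (m1c_smul_bD _ _ _).symm
    exact Fintype.linearIndependent_iff.1 hb _ h3 i
  have hspan : rd (zv D n) (VD D V) (VD D W) p = Submodule.span D (Set.range w) := by
    apply le_antisymm
    · intro c hc
      rw [mem_rd, mem_chD] at hc
      let B := Module.Basis.ofVectorSpace K D
      have h1 : ∀ φ : D →ₗ[K] K, (fun s => m1c φ (c s)) ∈ Z := by
        intro φ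
        rw [hZ, mem_rc, mem_chW]
        refine ⟨⟨fun s hs => ?_, fun s => m1c_mem (hc.1.2 s) φ⟩, fun t => ?_⟩
        · show m1c φ (c s) = 0
          rw [hc.1.1 s hs, m1c_zero]
        · rw [kd_m1c]
          exact m1c_mem (hc.2 t) φ
      have h2 : ∃ T : Finset _, ∀ s, c s = ∑ α ∈ T, B α • bD D (m1c (B.coord α) (c s)) := by
        choose T hT using fun s => m1c_expand B (c s)
        exact ⟨Finset.univ.biUnion T, fun s =>
          hT s _ (Finset.subset_biUnion_of_mem T (Finset.mem_univ s))⟩
      obtain ⟨T, hT⟩ := h2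
      have h3 : c = ∑ α ∈ T, B α • (fun s => bD D (m1c (B.coord α) (c s))) := by
        funext s
        rw [Finset.sum_apply]
        exact hT s
      rw [h3]
      refine Submodule.sum_mem _ fun α _ => Submodule.smul_mem _ _ ?_
      have h4 := congrArg Z.subtype (b.sum_repr ⟨_, h1 (B.coord α)⟩)
      rw [map_sum] at h4
      have h5 : (fun s => bD D (m1c (B.coord α) (c s))) =
          ∑ i, (algebraMap K D (b.repr ⟨_, h1 (B.coord α)⟩ i)) • w i := by
        funext s
        have h6 := congrFun h4 s
        rw [Finset.sum_apply] at h6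
        have h7 : m1c (B.coord α) (c s) = ∑ i, (b.repr ⟨_, h1 (B.coord α)⟩ i) •
            ((b i : Finset (Fin n) → MvPolynomial (Fin n) K) s) := h6.symm
        rw [h7, map_sum, Finset.sum_apply]
        exact Finset.sum_congr rfl fun i _ => bD_smul _ _
      rw [h5]
      exact Submodule.sum_mem _ fun i _ => Submodule.smul_mem _ _
        (Submodule.subset_span ⟨i, rfl⟩)
    · rw [Submodule.span_le]
      rintro _ ⟨i, rfl⟩
      have h := mem_rc.1 (b i).2
      refine ⟨⟨fun s hs => ?_, fun s => ?_⟩, fun t => ?_⟩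
      · show bD D ((b i : Finset (Fin n) → MvPolynomial (Fin n) K) s) = 0
        rw [h.1.1 s hs, map_zero]
      · exact Submodule.subset_span ⟨_, h.1.2 s, rfl⟩
      · have h1 := kr_bD (D := D) (b i : Finset (Fin n) → MvPolynomial (Fin n) K) t
        show kr (zv D n) (fun s => bD D ((b i : Finset (Fin n) → MvPolynomial (Fin n) K) s)) t ∈
          VD D V
        rw [h1]
        exact Submodule.subset_span ⟨_, h.2 t, rfl⟩
  rw [hspan, finrank_span_eq_card hw, Fintype.card_fin]

end Vale.Agent.P200.M
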