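import Vale.Agent.P200.M.Defs
import Vale.Agent.P200.M.BaseD

set_option linter.all false

/-! Change of the linear forms by a matrix with commuting rows. -/

namespace Vale.Agent.P200.M

open MvPolynomial Module
open Vale.Agent.P200.B Vale.Agent.P200.G Vale.Agent.P200.L

/-! ### exterior multiplication -/

section gen
variable {R : Type*} [Ring R] {n : ℕ}

theorem cp_sgn (k : ℕ) (y : R) : (-1 : R) ^ k * y = ((-1 : ℤ) ^ k) • y := by
  rcases Nat.even_or_odd k with h | h
  · rw [h.neg_one_pow, h.neg_one_pow, one_mul, one_smul]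
  · rw [h.neg_one_pow, h.neg_one_pow, neg_one_mul, neg_one_smul]

theorem cp_kr (x : Fin n → R) (c : Finset (Fin n) → R) (t : Finset (Fin n)) :
    kr x c t = ∑ i ∈ tᶜ, ((-1 : ℤ) ^ (t.filter fun k => k < i).card) •
      (c (insert i t) * x i) := by
  rw [kr_apply]
  exact Finset.sum_congr rfl fun i _ => cp_sgn _ _

/-- exterior multiplication with `∑ A_k e_k`, from the right -/
def cpe (A : Fin n → R) (c : Finset (Fin n) → R) : Finset (Fin n) → R := fun s =>
  ∑ k ∈ s, ((-1 : ℤ) ^ (s.filter fun j => j < k).card) • (c (s.erase k) * A k)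

theorem cpe_apply (A : Fin n → R) (c : Finset (Fin n) → R) (s : Finset (Fin n)) :
    cpe A c s = ∑ k ∈ s, ((-1 : ℤ) ^ (s.filter fun j => j < k).card) •
      (c (s.erase k) * A k) := rfl

theorem cpe_add (A : Fin n → R) (a b : Finset (Fin n) → R) :
    cpe A (a + b) = cpe A a + cpe A b := by
  funext s
  simp only [cpe_apply, Pi.add_apply, add_mul, smul_add, Finset.sum_add_distrib]

/-- additive version -/
def cpeH (A : Fin n → R) : (Finset (Fin n) → R) →+ (Finset (Fin n) → R) :=
  AddMonoidHom.mk' (cpe A) (cpe_add A)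

theorem cpeH_apply (A : Fin n → R) (c : Finset (Fin n) → R) : cpeH A c = cpe A c := rfl

theorem kr_add' (x : Fin n → R) (a b : Finset (Fin n) → R) :
    kr x (a + b) = kr x a + kr x b := by
  funext s
  simp only [cp_kr, Pi.add_apply, add_mul, smul_add, Finset.sum_add_distrib]

/-- additive version -/
def krH (x : Fin n → R) : (Finset (Fin n) → R) →+ (Finset (Fin n) → R) :=
  AddMonoidHom.mk' (kr x) (kr_add' x)

theorem krH_apply (x : Fin n → R) (c : Finset (Fin n) → R) : krH x c = kr x c := rfl

/-- the homotopy formula -/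
theorem cp_homotopy (x A : Fin n → R) (hc : ∀ i k, A k * x i = x i * A k)
    (c : Finset (Fin n) → R) (t : Finset (Fin n)) :
    kr x (cpe A c) t + cpe A (kr x c) t = c t * ∑ k, A k * x k := by
  classical
  have A1 : kr x (cpe A c) t = ∑ i ∈ tᶜ, (c t * (A i * x i) + ∑ j ∈ t, ((-1 : ℤ) ^
      ((t.filter fun k => k < i).card + ((insert i t).filter fun k => k < j).card)) •
        (c ((insert i t).erase j) * (A j * x i))) := by
    rw [cp_kr]
    refine Finset.sum_congr rfl fun i hi => ?_
    have hi' := Finset.mem_compl.1 hi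
    rw [cpe_apply, Finset.sum_insert hi', Finset.erase_insert hi', Finset.filter_insert,
      if_neg (lt_irrefl i), add_mul, smul_add]
    congr 1
    · rw [smul_mul_assoc, smul_smul, ← mul_pow, neg_one_mul, neg_neg, one_pow, one_smul, mul_assoc]
    · rw [Finset.sum_mul, Finset.smul_sum]
      refine Finset.sum_congr rfl fun j _ => ?_
      rw [smul_mul_assoc, smul_smul, pow_add, mul_assoc]
  have B1 : cpe A (kr x c) t = ∑ j ∈ t, (c t * (A j * x j) + ∑ i ∈ tᶜ, ((-1 : ℤ) ^
      ((t.filter fun k => k < j).card + ((t.erase j).filter fun k => k < i).card)) •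
        (c (insert i (t.erase j)) * (A j * x i))) := by
    rw [cpe_apply]
    refine Finset.sum_congr rfl fun j hj => ?_
    have h1 : (t.erase j)ᶜ = insert j tᶜ := Finset.compl_erase
    have h2 : j ∉ tᶜ := fun h => Finset.mem_compl.1 h hj
    have h3 : (t.erase j).filter (fun k => k < j) = t.filter fun k => k < j := by
      ext k
      simp only [Finset.mem_filter, Finset.mem_erase]
      constructor
      · rintro ⟨⟨_, h5⟩, h6⟩; exact ⟨h5, h6⟩
      · rintro ⟨h5, h6⟩; exact ⟨⟨h6.ne, h5⟩, h6⟩
    rw [cp_kr, h1, Finset.sum_insert h2, h3, Finset.insert_erase hj, add_mul, smul_add]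
    congr 1
    · rw [smul_mul_assoc, smul_smul, ← mul_pow, neg_one_mul, neg_neg, one_pow, one_smul,
        mul_assoc, hc]
    · rw [Finset.sum_mul, Finset.smul_sum]
      refine Finset.sum_congr rfl fun i _ => ?_
      rw [smul_mul_assoc, smul_smul, pow_add, mul_assoc, hc]
  rw [A1, B1, Finset.sum_add_distrib, Finset.sum_add_distrib,
    Finset.sum_comm (s := t) (t := tᶜ)]
  have C : (∑ i ∈ tᶜ, ∑ j ∈ t, ((-1 : ℤ) ^
      ((t.filter fun k => k < i).card + ((insert i t).filter fun k => k < j).card)) •
        (c ((insert i t).erase j) * (A j * x i))) + (∑ i ∈ tᶜ, ∑ j ∈ t, ((-1 : ℤ) ^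
      ((t.filter fun k => k < j).card + ((t.erase j).filter fun k => k < i).card)) •
        (c (insert i (t.erase j)) * (A j * x i))) = 0 := by
    rw [← Finset.sum_add_distrib]
    refine Finset.sum_eq_zero fun i hi => ?_
    rw [← Finset.sum_add_distrib]
    refine Finset.sum_eq_zero fun j hj => ?_
    have hi' := Finset.mem_compl.1 hi
    have hij : i ≠ j := fun h => hi' (h ▸ hj)
    rw [Finset.erase_insert_of_ne hij, ← add_smul]
    rcases lt_or_gt_of_ne hij with hlt | hlt
    · have h1 : ((insert i t).filter fun k => k < j).card =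
          (t.filter fun k => k < j).card + 1 := by
        rw [Finset.filter_insert, if_pos hlt, Finset.card_insert_of_notMem]
        simp [hi']
      have h2 : (t.erase j).filter (fun k => k < i) = t.filter fun k => k < i := by
        ext k
        simp only [Finset.mem_filter, Finset.mem_erase]
        constructor
        · rintro ⟨⟨_, h5⟩, h6⟩; exact ⟨h5, h6⟩
        · rintro ⟨h5, h6⟩; exact ⟨⟨(h6.trans hlt).ne, h5⟩, h6⟩
      rw [h1, h2]
      convert zero_smul ℤ _ using 2
      ring
    · have h1 : ((insert i t).filter fun k => k < j).card =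
          (t.filter fun k => k < j).card := by
        rw [Finset.filter_insert, if_neg (not_lt.2 hlt.le)]
      have h2 : (t.filter fun k => k < i).card =
          ((t.erase j).filter fun k => k < i).card + 1 := by
        have : t.filter (fun k => k < i) = insert j ((t.erase j).filter fun k => k < i) := by
          ext k
          simp only [Finset.mem_filter, Finset.mem_erase, Finset.mem_insert]
          constructor
          · rintro ⟨h5, h6⟩
            by_cases hkj : k = j
            · exact Or.inl hkj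
            · exact Or.inr ⟨⟨hkj, h5⟩, h6⟩
          · rintro (rfl | ⟨⟨_, h5⟩, h6⟩)
            · exact ⟨hj, hlt⟩
            · exact ⟨h5, h6⟩
        rw [this, Finset.card_insert_of_notMem]
        simp
      rw [h1, h2]
      convert zero_smul ℤ _ using 2
      ring
  have D : c t * (∑ i, A i * x i) =
      (∑ i ∈ tᶜ, c t * (A i * x i)) + ∑ i ∈ t, c t * (A i * x i) := by
    rw [Finset.mul_sum, ← Finset.sum_compl_add_sum t]
  rw [D]
  have := C
  generalize (∑ i ∈ tᶜ, ∑ j ∈ t, ((-1 : ℤ) ^
      ((t.filter fun k => k < i).card + ((insert i t).filter fun k => k < j).card)) •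
        (c ((insert i t).erase j) * (A j * x i))) = P at *
  generalize (∑ i ∈ tᶜ, ∑ j ∈ t, ((-1 : ℤ) ^
      ((t.filter fun k => k < j).card + ((t.erase j).filter fun k => k < i).card)) •
        (c (insert i (t.erase j)) * (A j * x i))) = Q at *
  have hP : P = -Q := eq_neg_of_add_eq_zero_left this
  rw [hP]
  abel

/-! ### the compound of a matrix -/

/-- concentrated in the empty set -/
def cp0 (n : ℕ) (y : R) : Finset (Fin n) → R := fun s => if s = ∅ then y else 0

/-- the exterior product of the rows with indices in `I` -/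
def cpW (A : Fin n → Fin n → R) (I : Finset (Fin n)) (y : R) : Finset (Fin n) → R :=
  (I.sort (· ≤ ·)).foldr (fun i c => cpe (A i) c) (cp0 n y)

theorem cpW_empty (A : Fin n → Fin n → R) (y : R) : cpW A ∅ y = cp0 n y := by
  rw [cpW, Finset.sort_empty]
  rfl

theorem cpW_insert (A : Fin n → Fin n → R) {a : Fin n} {s : Finset (Fin n)}
    (h : ∀ b ∈ s, a < b) (y : R) : cpW A (insert a s) y = cpe (A a) (cpW A s y) := by
  rw [cpW, Finset.sort_insert _ (fun b hb => (h b hb).le) (fun h' => lt_irrefl _ (h a h'))]
  rfl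

theorem cpW_add (A : Fin n → Fin n → R) (I : Finset (Fin n)) (y w : R) :
    cpW A I (y + w) = cpW A I y + cpW A I w := by
  induction I using Finset.induction_on_min with
  | empty =>
    simp only [cpW_empty]
    funext s
    simp only [cp0, Pi.add_apply]
    split_ifs <;> simp
  | insert a s ha ih => rw [cpW_insert A ha, cpW_insert A ha, cpW_insert A ha, ih, cpe_add]

/-- additive version -/
def cpWH (A : Fin n → Fin n → R) (I : Finset (Fin n)) : R →+ (Finset (Fin n) → R) :=
  AddMonoidHom.mk' (cpW A I) (cpW_add A I)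

theorem cpWH_apply (A : Fin n → Fin n → R) (I : Finset (Fin n)) (y : R) :
    cpWH A I y = cpW A I y := rfl

theorem cpe_mul (A : Fin n → R) (c : Finset (Fin n) → R) (w : R) (hw : ∀ k, A k * w = w * A k)
    (s : Finset (Fin n)) : cpe A (fun t => c t * w) s = cpe A c s * w := by
  rw [cpe_apply, cpe_apply, Finset.sum_mul]
  refine Finset.sum_congr rfl fun k _ => ?_
  rw [smul_mul_assoc, mul_assoc, mul_assoc, hw]

theorem cpW_mul (A : Fin n → Fin n → R) (I : Finset (Fin n)) (y w : R)
    (hw : ∀ i ∈ I, ∀ k, A i k * w = w * A i k) : cpW A I (y * w) = fun s => cpW A I y s * w := by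
  induction I using Finset.induction_on_min with
  | empty =>
    simp only [cpW_empty]
    funext s
    simp only [cp0]
    split_ifs <;> simp
  | insert a s ha ih =>
    rw [cpW_insert A ha, cpW_insert A ha, ih fun i hi => hw i (Finset.mem_insert_of_mem hi)]
    funext t
    exact cpe_mul _ _ _ (hw a (Finset.mem_insert_self a s)) t

theorem cpe_card (A : Fin n → R) {c : Finset (Fin n) → R} {p : ℕ}
    (hc : ∀ s, s.card ≠ p → c s = 0) (s : Finset (Fin n)) (hs : s.card ≠ p + 1) :
    cpe A c s = 0 := by
  rw [cpe_apply]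
  refine Finset.sum_eq_zero fun k hk => ?_
  rw [hc, zero_mul, smul_zero]
  rw [Finset.card_erase_of_mem hk]
  have := Finset.card_pos.2 ⟨k, hk⟩
  omega

theorem cpW_card (A : Fin n → Fin n → R) (I : Finset (Fin n)) (y : R) :
    ∀ s : Finset (Fin n), s.card ≠ I.card → cpW A I y s = 0 := by
  induction I using Finset.induction_on_min with
  | empty =>
    intro s hs
    rw [cpW_empty, cp0, if_neg]
    rintro rfl
    exact hs rfl
  | insert a s ha ih =>
    intro t ht
    rw [Finset.card_insert_of_notMem fun h' => lt_irrefl _ (ha a h')] at ht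
    rw [cpW_insert A ha]
    exact cpe_card _ ih t ht

theorem kr_sum {ι : Type*} (x : Fin n → R) (S : Finset ι) (f : ι → Finset (Fin n) → R) :
    kr x (∑ i ∈ S, f i) = ∑ i ∈ S, kr x (f i) := by
  have := map_sum (krH x) f S
  exact this

theorem cpe_sum {ι : Type*} (A : Fin n → R) (S : Finset ι) (f : ι → Finset (Fin n) → R) :
    cpe A (∑ i ∈ S, f i) = ∑ i ∈ S, cpe A (f i) := by
  have := map_sum (cpeH A) f S
  exact this

theorem cpe_zsmul (A : Fin n → R) (k : ℤ) (f : Finset (Fin n) → R) :
    cpe A (k • f) = k • cpe A f := by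
  have := map_zsmul (cpeH A) k f
  exact this

/-- the differential of an exterior product -/
theorem kr_cpW (x : Fin n → R) (A : Fin n → Fin n → R)
    (hx : ∀ j i k, A j k * x i = x i * A j k)
    (hrow : ∀ i j, i ≠ j → ∀ k l, A i k * A j l = A j l * A i k)
    (I : Finset (Fin n)) (y : R) :
    kr x (cpW A I y) = ∑ i ∈ I, ((-1 : ℤ) ^ (I.filter fun k => k < i).card) •
      cpW A (I.erase i) (y * ∑ k, A i k * x k) := by
  induction I using Finset.induction_on_min with
  | empty =>
    rw [cpW_empty, Finset.sum_empty]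
    funext t
    rw [cp_kr]
    refine Finset.sum_eq_zero fun i _ => ?_
    rw [cp0, if_neg (Finset.insert_ne_empty _ _), zero_mul, smul_zero]
  | insert a s ha ih =>
    have has : a ∉ s := fun h' => lt_irrefl _ (ha a h')
    rw [cpW_insert A ha, Finset.sum_insert has]
    have h1 : kr x (cpe (A a) (cpW A s y)) =
        (fun t => cpW A s y t * ∑ k, A a k * x k) - cpe (A a) (kr x (cpW A s y)) := by
      rw [eq_sub_iff_add_eq]
      funext t
      exact cp_homotopy x (A a) (fun i k => hx a i k) _ t
    have h2 : cpW A s (y * ∑ k, A a k * x k) = fun t => cpW A s y t * ∑ k, A a k * x k := by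
      refine cpW_mul A s y _ fun i hi k => ?_
      rw [Finset.mul_sum, Finset.sum_mul]
      refine Finset.sum_congr rfl fun l _ => ?_
      have hia : i ≠ a := fun h => has (h ▸ hi)
      rw [← mul_assoc, hrow i a hia k l, mul_assoc, hx i l k, mul_assoc]
    have h3 : (insert a s).filter (fun k => k < a) = ∅ := by
      rw [Finset.filter_eq_empty_iff]
      intro k hk
      rcases Finset.mem_insert.1 hk with rfl | hk
      · exact lt_irrefl _
      · exact not_lt.2 (ha k hk).le
    rw [h1, ← h2, ih, cpe_sum, h3, Finset.card_empty, pow_zero, one_smul,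
      Finset.erase_insert has, sub_eq_add_neg, ← Finset.sum_neg_distrib]
    congr 1
    refine Finset.sum_congr rfl fun i hi => ?_
    have hia : i ≠ a := fun h => has (h ▸ hi)
    have h4 : (insert a s).filter (fun k => k < i) = insert a (s.filter fun k => k < i) := by
      rw [Finset.filter_insert, if_pos (ha i hi)]
    have h5 : (insert a s).erase i = insert a (s.erase i) := by
      rw [Finset.erase_insert_of_ne hia.symm]
    rw [cpe_zsmul, h4, h5, cpW_insert A fun b hb => ha b (Finset.mem_of_mem_erase hb),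
      Finset.card_insert_of_notMem (by simp [has]), pow_succ, mul_neg_one, neg_smul]

/-- the compound of `A` -/
def cpL (A : Fin n → Fin n → R) (c : Finset (Fin n) → R) : Finset (Fin n) → R :=
  ∑ I, cpW A I (c I)

theorem kr_cpL (x : Fin n → R) (A : Fin n → Fin n → R)
    (hx : ∀ j i k, A j k * x i = x i * A j k)
    (hrow : ∀ i j, i ≠ j → ∀ k l, A i k * A j l = A j l * A i k)
    (c : Finset (Fin n) → R) :
    kr x (cpL A c) = cpL A (kr (fun i => ∑ k, A i k * x k) c) := by
  rw [cpL, kr_sum, cpL]
  have h1 : ∀ J : Finset (Fin n), cpW A J (kr (fun i => ∑ k, A i k * x k) c J) =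
      ∑ i ∈ Jᶜ, ((-1 : ℤ) ^ (J.filter fun k => k < i).card) •
        cpW A J (c (insert i J) * ∑ k, A i k * x k) := by
    intro J
    rw [cp_kr, ← cpWH_apply, map_sum]
    refine Finset.sum_congr rfl fun i _ => ?_
    rw [map_zsmul]
    rfl
  simp only [h1, kr_cpW x A hx hrow]
  rw [Finset.sum_sigma', Finset.sum_sigma']
  refine Finset.sum_bij' (fun a _ => ⟨a.1.erase a.2, a.2⟩) (fun a _ => ⟨insert a.2 a.1, a.2⟩)
    ?_ ?_ ?_ ?_ ?_
  · rintro ⟨I, i⟩ h
    simp
  · rintro ⟨I, i⟩ h
    simp
  · rintro ⟨I, i⟩ h
    have hi : i ∈ I := by simpa using h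
    simp [Finset.insert_erase hi]
  · rintro ⟨I, i⟩ h
    have hi : i ∉ I := by simpa using h
    simp [Finset.erase_insert hi]
  · rintro ⟨I, i⟩ h
    have hi : i ∈ I := by simpa using h
    have h3 : (I.erase i).filter (fun k => k < i) = I.filter fun k => k < i := by
      ext k
      simp only [Finset.mem_filter, Finset.mem_erase]
      constructor
      · rintro ⟨⟨_, h5⟩, h6⟩; exact ⟨h5, h6⟩
      · rintro ⟨h5, h6⟩; exact ⟨⟨h6.ne, h5⟩, h6⟩
    simp only
    rw [h3, Finset.insert_erase hi]

theorem cpL_apply (A : Fin n → Fin n → R) (c : Finset (Fin n) → R) (s : Finset (Fin n)) :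
    cpL A c s = ∑ I, cpW A I (c I) s := by
  rw [cpL, Finset.sum_apply]

theorem cpL_card (A : Fin n → Fin n → R) {c : Finset (Fin n) → R} {p : ℕ}
    (hc : ∀ s, s.card ≠ p → c s = 0) (s : Finset (Fin n)) (hs : s.card ≠ p) :
    cpL A c s = 0 := by
  rw [cpL_apply]
  refine Finset.sum_eq_zero fun I _ => ?_
  by_cases hI : I.card = p
  · exact cpW_card A I _ s fun h => hs (h.trans hI)
  · rw [hc I hI, ← cpWH_apply, map_zero]
    rfl

/-- naturality -/
theorem cpW_nat {R' : Type*} [Ring R'] (φ : R →+ R') (A : Fin n → Fin n → R)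
    (A' : Fin n → Fin n → R') (h : ∀ u i k, φ (u * A i k) = φ u * A' i k)
    (I : Finset (Fin n)) (y : R) (s : Finset (Fin n)) :
    φ (cpW A I y s) = cpW A' I (φ y) s := by
  induction I using Finset.induction_on_min generalizing s with
  | empty =>
    rw [cpW_empty, cpW_empty, cp0, cp0]
    split_ifs
    · rfl
    · exact map_zero φ
  | insert a t ha ih =>
    rw [cpW_insert A ha, cpW_insert A' ha, cpe_apply, cpe_apply, map_sum]
    refine Finset.sum_congr rfl fun k _ => ?_
    rw [map_zsmul, h, ih]

theorem cpL_nat {R' : Type*} [Ring R'] (φ : R →+ R') (A : Fin n → Fin n → R)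
    (A' : Fin n → Fin n → R') (h : ∀ u i k, φ (u * A i k) = φ u * A' i k)
    (c : Finset (Fin n) → R) (s : Finset (Fin n)) :
    φ (cpL A c s) = cpL A' (fun t => φ (c t)) s := by
  rw [cpL_apply, cpL_apply, map_sum]
  exact Finset.sum_congr rfl fun I _ => cpW_nat φ A A' h I _ s

theorem cpL_zero (A : Fin n → Fin n → R) : cpL A 0 = 0 := by
  rw [cpL]
  refine Finset.sum_eq_zero fun I _ => ?_
  exact map_zero (cpWH A I)

theorem cpL_add (A : Fin n → Fin n → R) (a b : Finset (Fin n) → R) :
    cpL A (a + b) = cpL A a + cpL A b := by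
  rw [cpL, cpL, cpL, ← Finset.sum_add_distrib]
  refine Finset.sum_congr rfl fun I _ => ?_
  rw [Pi.add_apply, cpW_add]

end gen

section mem

variable {D R : Type*} [DivisionRing D] [Ring R] [Module D R] [IsScalarTower D R R] {n : ℕ}

theorem cpe_mem (A : Fin n → R) {W : Submodule D R} (hA : ∀ u ∈ W, ∀ k, u * A k ∈ W)
    {c : Finset (Fin n) → R} (hc : ∀ s, c s ∈ W) (s : Finset (Fin n)) : cpe A c s ∈ W := by
  rw [cpe_apply]
  refine W.sum_mem fun k _ => ?_
  exact W.toAddSubgroup.zsmul_mem (hA _ (hc _) _) _

theorem cpW_mem (A : Fin n → Fin n → R) {W : Submodule D R}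
    (hA : ∀ u ∈ W, ∀ i k, u * A i k ∈ W) (I : Finset (Fin n)) {y : R} (hy : y ∈ W) :
    ∀ s, cpW A I y s ∈ W := by
  induction I using Finset.induction_on_min with
  | empty =>
    intro s
    rw [cpW_empty, cp0]
    split_ifs
    · exact hy
    · exact W.zero_mem
  | insert a t ha ih =>
    rw [cpW_insert A ha]
    exact cpe_mem _ (fun u hu k => hA u hu a k) ih

theorem cpL_mem (A : Fin n → Fin n → R) {W : Submodule D R}
    (hA : ∀ u ∈ W, ∀ i k, u * A i k ∈ W) {c : Finset (Fin n) → R} (hc : ∀ s, c s ∈ W)
    (s : Finset (Fin n)) : cpL A c s ∈ W := by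
  rw [cpL_apply]
  exact W.sum_mem fun I _ => cpW_mem A hA I (hc I) s

theorem cpL_smul (A : Fin n → Fin n → R) (a : D) (c : Finset (Fin n) → R) :
    cpL A (a • c) = a • cpL A c := by
  have h : ∀ (I : Finset (Fin n)) (y : R), cpW A I (a • y) = a • cpW A I y := by
    intro I y
    induction I using Finset.induction_on_min with
    | empty =>
      rw [cpW_empty, cpW_empty]
      funext s
      rw [Pi.smul_apply, cp0, cp0]
      split_ifs
      · rfl
      · exact (smul_zero a).symm
    | insert i t ha ih =>
      rw [cpW_insert A ha, cpW_insert A ha, ih]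
      funext s
      rw [Pi.smul_apply, cpe_apply, cpe_apply, Finset.smul_sum]
      refine Finset.sum_congr rfl fun k _ => ?_
      rw [Pi.smul_apply, smul_mul_assoc, smul_comm]
  rw [cpL, cpL, Finset.smul_sum]
  exact Finset.sum_congr rfl fun I _ => h I _

/-- `cpL` as a `D`-linear map -/
def cpLL (D : Type*) [DivisionRing D] {R : Type*} [Ring R] [Module D R] [IsScalarTower D R R]
    {n : ℕ} (A : Fin n → Fin n → R) : (Finset (Fin n) → R) →ₗ[D] (Finset (Fin n) → R) where
  toFun := cpL A
  map_add' := cpL_add A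
  map_smul' := fun a c => cpL_smul A a c

theorem cpLL_apply (A : Fin n → Fin n → R) (c : Finset (Fin n) → R) :
    cpLL D A c = cpL A c := rfl

end mem

section const

variable {D : Type*} [DivisionRing D] {n : ℕ}

/-- injectivity on constants -/
theorem cpL_inj_const (E : Fin n → Fin n → D)
    (hrow : ∀ i j, i ≠ j → ∀ k l, E i k * E j l = E j l * E i k)
    (hind : LinearIndependent D E) (p : ℕ) :
    ∀ c : Finset (Fin n) → D, (∀ s, s.card ≠ p → c s = 0) → cpL E c = 0 → c = 0 := by
  induction p with
  | zero =>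
    intro c hc h
    have h1 : cpL E c ∅ = c ∅ := by
      rw [cpL_apply, Finset.sum_eq_single ∅]
      · rw [cpW_empty, cp0, if_pos rfl]
      · intro I _ hI
        rw [hc I (by simpa using hI), ← cpWH_apply, map_zero]
        rfl
      · simp
    funext s
    by_cases hs : s = ∅
    · rw [hs, ← h1, h]
    · exact hc s (by simpa using hs)
  | succ p ih =>
    intro c hc h
    have h1 : ∀ k : Fin n, kr (fun i => E i k) c = 0 := by
      intro k
      apply ih
      · intro s hs
        rw [cp_kr]
        refine Finset.sum_eq_zero fun i hi => ?_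
        rw [hc, zero_mul, smul_zero]
        rw [Finset.card_insert_of_notMem (Finset.mem_compl.1 hi)]
        omega
      · have h2 := kr_cpL (fun j : Fin n => if j = k then (1 : D) else 0) E
          (fun j i l => by split_ifs <;> simp) hrow c
        have h3 : (fun i => ∑ j, E i j * if j = k then (1 : D) else 0) = fun i => E i k := by
          funext i
          simp
        rw [h3] at h2
        rw [← h2, h]
        exact map_zero (krH _)
    funext s
    by_cases hs : s.card = p + 1
    · obtain ⟨i₀, hi₀⟩ : s.Nonempty := Finset.card_pos.1 (by omega)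
      have hi₁ : i₀ ∉ s.erase i₀ := Finset.notMem_erase _ _
      have h4 : ∑ i, (if i ∈ s.erase i₀ then (0 : D) else
          ((-1 : ℤ) ^ ((s.erase i₀).filter fun k => k < i).card) • c (insert i (s.erase i₀))) •
          E i = 0 := by
        funext k
        rw [Finset.sum_apply, Pi.zero_apply]
        have h5 := congrFun (h1 k) (s.erase i₀)
        rw [cp_kr, Pi.zero_apply] at h5
        refine Eq.trans ?_ h5
        rw [← Finset.sum_compl_add_sum (s.erase i₀)]
        rw [Finset.sum_eq_zero (s := s.erase i₀)]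
        · rw [add_zero]
          refine Finset.sum_congr rfl fun i hi => ?_
          rw [if_neg (Finset.mem_compl.1 hi), Pi.smul_apply, smul_eq_mul, smul_mul_assoc]
        · intro i hi
          rw [if_pos hi, zero_smul, Pi.zero_apply]
      have h6 := (Fintype.linearIndependent_iff.1 hind) _ h4 i₀
      rw [if_neg hi₁, Finset.insert_erase hi₀] at h6
      rcases neg_one_pow_eq_or ℤ ((s.erase i₀).filter fun k => k < i₀).card with h7 | h7
      · rw [h7, one_smul] at h6
        exact h6
      · rw [h7, neg_one_smul, neg_eq_zero] at h6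
        exact h6
    · exact hc s hs

/-- right multiplication by constants, on coefficients -/
theorem coeff_mul_single_zero (u : YR D n) (a : D) (m : Fin n →₀ ℕ) :
    (u * AddMonoidAlgebra.single 0 a).coeff m = u.coeff m * a :=
  AddMonoidAlgebra.coeff_mul_single_zero u a m

/-- injectivity -/
theorem cpL_inj (E : Fin n → Fin n → D)
    (hrow : ∀ i j, i ≠ j → ∀ k l, E i k * E j l = E j l * E i k)
    (hind : LinearIndependent D E) (p : ℕ) (c : Finset (Fin n) → YR D n)
    (hc : ∀ s, s.card ≠ p → c s = 0)
    (h : cpL (fun i k => (AddMonoidAlgebra.single 0 (E i k) : YR D n)) c = 0) : c = 0 := by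
  funext s
  ext m
  let φ : YR D n →+ D := AddMonoidHom.mk' (fun u => u.coeff m) (fun u v => by
    rw [AddMonoidAlgebra.coeff_add, Finsupp.add_apply])
  have h1 : (fun t => φ (c t)) = 0 := by
    apply cpL_inj_const E hrow hind p
    · intro t ht
      change φ (c t) = 0
      rw [hc t ht, map_zero]
    · funext t
      rw [← cpL_nat φ (fun i k => (AddMonoidAlgebra.single 0 (E i k) : YR D n)) E
        (fun u i k => coeff_mul_single_zero u _ m), h]
      exact map_zero φ
  have h2 := congrFun h1 s
  exact h2

end const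

section main

variable {D : Type*} [DivisionRing D] {n : ℕ}

theorem finite_chD (p : ℕ) (W : Submodule D (YR D n)) [Module.Finite D W] :
    Module.Finite D (chD n p W) := by
  let f : chD n p W →ₗ[D] (Finset (Fin n) → W) :=
    { toFun := fun c s => ⟨c.1 s, c.2.2 s⟩
      map_add' := fun a b => rfl
      map_smul' := fun a b => rfl }
  refine Module.Finite.of_injective f fun a b h => ?_
  apply Subtype.ext
  funext s
  exact congrArg Subtype.val (congrFun h s)

theorem rd_zero (x : Fin n → YR D n) (U W : Submodule D (YR D n)) : rd x U W 0 = chD n 0 W := by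
  ext c
  rw [mem_rd]
  refine ⟨fun h => h.1, fun h => ⟨h, fun t => ?_⟩⟩
  have : kr x c t = 0 := by
    rw [cp_kr]
    refine Finset.sum_eq_zero fun i hi => ?_
    rw [h.1, zero_mul, smul_zero]
    rw [Finset.card_insert_of_notMem (Finset.mem_compl.1 hi)]
    omega
  rw [this]
  exact U.zero_mem

theorem kr_card (x : Fin n → YR D n) {c : Finset (Fin n) → YR D n} {q : ℕ}
    (hc : ∀ s, s.card ≠ q + 1 → c s = 0) (t : Finset (Fin n)) (ht : t.card ≠ q) :
    kr x c t = 0 := by
  rw [cp_kr]
  refine Finset.sum_eq_zero fun i hi => ?_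
  rw [hc, zero_mul, smul_zero]
  rw [Finset.card_insert_of_notMem (Finset.mem_compl.1 hi)]
  omega

/-- The Koszul complexes of `z` and of the `ξ_i = ∑ E_ik z_k` are isomorphic. -/
theorem compound (E : Fin n → Fin n → D)
    (hrow : ∀ i j, i ≠ j → ∀ k l, E i k * E j l = E j l * E i k)
    (hind : LinearIndependent D E) {d p : ℕ} (V : Submodule D (YR D n))
    (hV : V ≤ YD D n (d + 1))
    (hVr : ∀ u ∈ V, ∀ c : D, u * AddMonoidAlgebra.single 0 c ∈ V) :
    finrank D (rd (zv D n) V (YD D n d) p) =
      finrank D (rd (fun i => lin (E i)) V (YD D n d) p) := by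
  classical
  rcases p with _ | q
  · rw [rd_zero, rd_zero]
  let A : Fin n → Fin n → YR D n := fun i k => AddMonoidAlgebra.single 0 (E i k)
  have hxi : (fun i => ∑ k, A i k * zv D n k) = fun i => lin (E i) := by
    funext i
    rw [lin]
    refine Finset.sum_congr rfl fun k _ => ?_
    simp only [A, zv]
    rw [AddMonoidAlgebra.single_mul_single, zero_add, mul_one]
  have hx : ∀ j i k, A j k * zv D n i = zv D n i * A j k := by
    intro j i k
    simp only [A, zv]
    rw [AddMonoidAlgebra.single_mul_single, AddMonoidAlgebra.single_mul_single, zero_add, mul_one,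
      add_zero, one_mul]
  have hrow' : ∀ i j, i ≠ j → ∀ k l, A i k * A j l = A j l * A i k := by
    intro i j hij k l
    simp only [A]
    rw [AddMonoidAlgebra.single_mul_single, AddMonoidAlgebra.single_mul_single, hrow i j hij]
  have hchain : ∀ c, kr (zv D n) (cpL A c) = cpL A (kr (fun i => lin (E i)) c) := by
    intro c
    rw [kr_cpL (zv D n) A hx hrow' c, hxi]
  have hinj : ∀ (r : ℕ) (c : Finset (Fin n) → YR D n), (∀ s, s.card ≠ r → c s = 0) →
      cpL A c = 0 → c = 0 := fun r c hc h => cpL_inj E hrow hind r c hc h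
  -- surjectivity
  have hsurj : ∀ (r : ℕ) (W : Submodule D (YR D n)) [Module.Finite D W],
      (∀ u ∈ W, ∀ i k, u * A i k ∈ W) → ∀ c ∈ chD n r W, ∃ c' ∈ chD n r W, cpL A c' = c := by
    intro r W _ hW c hc
    have := finite_chD r W
    let g : chD n r W →ₗ[D] chD n r W := (cpLL D A).restrict fun c hc =>
      ⟨fun s hs => cpL_card A hc.1 s hs, fun s => cpL_mem A hW hc.2 s⟩
    have hg : Function.Injective g := by
      rw [← LinearMap.ker_eq_bot, LinearMap.ker_eq_bot']
      intro c hc
      apply Subtype.ext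
      exact hinj r c.1 c.2.1 (congrArg Subtype.val hc)
    obtain ⟨c', hc'⟩ := (LinearMap.injective_iff_surjective.1 hg) ⟨c, hc⟩
    exact ⟨c'.1, c'.2, congrArg Subtype.val hc'⟩
  have hVA : ∀ u ∈ V, ∀ i k, u * A i k ∈ V := fun u hu i k => hVr u hu _
  have hYA : ∀ u ∈ YD D n d, ∀ i k, u * A i k ∈ YD D n d := by
    intro u hu i k m hm
    refine hu m fun h => hm ?_
    simp only [A]
    rw [coeff_mul_single_zero, h, zero_mul]
  have hfV : Module.Finite D V := by
    have := finite_YD (D := D) (n := n) (d + 1)
    exact Module.Finite.of_injective (Submodule.inclusion hV) (Submodule.inclusion_injective hV)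
  have hmap : (rd (fun i => lin (E i)) V (YD D n d) (q + 1)).map (cpLL D A) =
      rd (zv D n) V (YD D n d) (q + 1) := by
    ext c
    rw [Submodule.mem_map]
    constructor
    · rintro ⟨c, hc, rfl⟩
      rw [cpLL_apply, mem_rd]
      refine ⟨⟨fun s hs => cpL_card A hc.1.1 s hs, fun s => cpL_mem A hYA hc.1.2 s⟩, ?_⟩
      intro t
      rw [hchain]
      exact cpL_mem A hVA hc.2 t
    · intro hc
      obtain ⟨c', hc', rfl⟩ := hsurj (q + 1) (YD D n d) hYA c hc.1
      refine ⟨c', ⟨hc', ?_⟩, rfl⟩
      have h1 : kr (zv D n) (cpL A c') ∈ chD n q V :=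
        ⟨fun t ht => kr_card _ hc.1.1 t ht, hc.2⟩
      obtain ⟨w, hw, hw'⟩ := hsurj q V hVA _ h1
      rw [hchain] at hw'
      have h2 : kr (fun i => lin (E i)) c' - w = 0 := by
        apply hinj q
        · intro s hs
          rw [Pi.sub_apply, kr_card _ hc'.1 s hs, hw.1 s hs, sub_zero]
        · have h3 : cpL A (kr (fun i => lin (E i)) c' - w) =
              cpL A (kr (fun i => lin (E i)) c') - cpL A w := map_sub (cpLL D A) _ _
          rw [h3, hw', sub_self]
      rw [sub_eq_zero] at h2
      rw [h2]
      exact hw.2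
  rw [← hmap, ← LinearMap.range_domRestrict]
  refine LinearMap.finrank_range_of_inj ?_
  rw [← LinearMap.ker_eq_bot, LinearMap.ker_eq_bot']
  intro c hc
  apply Subtype.ext
  exact hinj (q + 1) c.1 c.2.1.1 hc

end main

end Vale.Agent.P200.M
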