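import Vale.Agent.P200.L.LPP3

/-!
Cycles with coefficients in a division ring.
`YR D n` is the polynomial ring in `n` central variables over the division ring `D`; all spaces are
left `D`-spaces, all differentials are given by right multiplications.
-/

namespace Vale.Agent.P200.M

open MvPolynomial Module
open Vale.Agent.P200.B Vale.Agent.P200.G Vale.Agent.P200.L

/-- polynomials with central variables over a division ring -/
abbrev YR (D : Type*) [DivisionRing D] (n : ℕ) : Type _ := AddMonoidAlgebra D (Fin n →₀ ℕ)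

section ring
variable {D R : Type*} [DivisionRing D] [Ring R] [Module D R] [IsScalarTower D R R] {n : ℕ}

/-- families indexed by the `p`-element sets, with entries in `W` -/
def chD (n p : ℕ) (W : Submodule D R) : Submodule D (Finset (Fin n) → R) where
  carrier := {c | (∀ s, s.card ≠ p → c s = 0) ∧ ∀ s, c s ∈ W}
  add_mem' := by
    rintro a b ⟨ha, ha'⟩ ⟨hb, hb'⟩
    exact ⟨fun s hs => by simp [ha s hs, hb s hs], fun s => W.add_mem (ha' s) (hb' s)⟩
  zero_mem' := ⟨fun _ _ => rfl, fun _ => W.zero_mem⟩
  smul_mem' := by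
    rintro k a ⟨ha, ha'⟩
    exact ⟨fun s hs => by simp [ha s hs], fun s => W.smul_mem _ (ha' s)⟩

theorem mem_chD {p : ℕ} {W : Submodule D R} {c : Finset (Fin n) → R} :
    c ∈ chD n p W ↔ (∀ s, s.card ≠ p → c s = 0) ∧ ∀ s, c s ∈ W := Iff.rfl

/-- the Koszul differential of right multiplications by `x` -/
def kr (x : Fin n → R) (c : Finset (Fin n) → R) : Finset (Fin n) → R := fun t =>
  ∑ i ∈ tᶜ, (-1 : R) ^ (t.filter fun k => k < i).card * (c (insert i t) * x i)

theorem kr_apply (x : Fin n → R) (c : Finset (Fin n) → R) (t : Finset (Fin n)) :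
    kr x c t = ∑ i ∈ tᶜ, (-1 : R) ^ (t.filter fun k => k < i).card * (c (insert i t) * x i) := rfl

theorem kr_add (x : Fin n → R) (a b : Finset (Fin n) → R) : kr x (a + b) = kr x a + kr x b := by
  funext t
  rw [Pi.add_apply, kr_apply, kr_apply, kr_apply, ← Finset.sum_add_distrib]
  refine Finset.sum_congr rfl fun i _ => ?_
  rw [Pi.add_apply, add_mul, mul_add]

theorem kr_smul (x : Fin n → R) (k : D) (a : Finset (Fin n) → R) :
    kr x (k • a) = k • kr x a := by
  funext t
  rw [Pi.smul_apply, kr_apply, kr_apply, Finset.smul_sum]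
  refine Finset.sum_congr rfl fun i _ => ?_
  rw [Pi.smul_apply, smul_mul_assoc]
  rcases neg_one_pow_eq_or R (t.filter fun k => k < i).card with h | h
  · rw [h, one_mul, one_mul]
  · rw [h, neg_one_mul, neg_one_mul, smul_neg]

/-- the differential as a `D`-linear map -/
def krL (D : Type*) [DivisionRing D] {R : Type*} [Ring R] [Module D R] [IsScalarTower D R R]
    {n : ℕ} (x : Fin n → R) : (Finset (Fin n) → R) →ₗ[D] (Finset (Fin n) → R) where
  toFun := kr x
  map_add' := kr_add x
  map_smul' := fun k a => kr_smul x k a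

theorem krL_apply (x : Fin n → R) (c : Finset (Fin n) → R) : krL D x c = kr x c := rfl

/-- families with entries in `W` whose differential has entries in `U` -/
def rd (x : Fin n → R) (U W : Submodule D R) (p : ℕ) : Submodule D (Finset (Fin n) → R) where
  carrier := {c | c ∈ chD n p W ∧ ∀ t, kr x c t ∈ U}
  add_mem' := by
    rintro a b ⟨ha, ha'⟩ ⟨hb, hb'⟩
    refine ⟨Submodule.add_mem _ ha hb, fun t => ?_⟩
    rw [kr_add]
    exact U.add_mem (ha' t) (hb' t)
  zero_mem' := by
    refine ⟨Submodule.zero_mem _, fun t => ?_⟩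
    have h : kr x (0 : Finset (Fin n) → R) = 0 := (krL D x).map_zero
    rw [h]
    exact U.zero_mem
  smul_mem' := by
    rintro k a ⟨ha, ha'⟩
    refine ⟨Submodule.smul_mem _ _ ha, fun t => ?_⟩
    rw [kr_smul]
    exact U.smul_mem _ (ha' t)

theorem mem_rd {p : ℕ} {x : Fin n → R} {U W : Submodule D R} {c : Finset (Fin n) → R} :
    c ∈ rd x U W p ↔ c ∈ chD n p W ∧ ∀ t, kr x c t ∈ U := Iff.rfl

end ring

section poly
variable {D : Type*} [DivisionRing D] {n : ℕ}

/-- forms of degree `d` -/
def YD (D : Type*) [DivisionRing D] (n d : ℕ) : Submodule D (YR D n) where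
  carrier := {u | ∀ m, u.coeff m ≠ 0 → ∑ i, m i = d}
  add_mem' := by
    intro a b ha hb m hm
    by_contra h
    have h1 : a.coeff m = 0 := by
      by_contra h'
      exact h (ha m h')
    have h2 : b.coeff m = 0 := by
      by_contra h'
      exact h (hb m h')
    apply hm
    rw [AddMonoidAlgebra.coeff_add, Finsupp.add_apply, h1, h2, add_zero]
  zero_mem' := by
    intro m hm
    exact absurd (by rw [AddMonoidAlgebra.coeff_zero, Finsupp.zero_apply]) hm
  smul_mem' := by
    intro k a ha m hm
    refine ha m fun h => hm ?_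
    rw [AddMonoidAlgebra.coeff_smul_apply, h, smul_zero]

/-- polynomials supported on a set of exponents -/
def monD (D : Type*) [DivisionRing D] {n : ℕ} (M : Set (Fin n →₀ ℕ)) : Submodule D (YR D n) where
  carrier := {u | ∀ m, u.coeff m ≠ 0 → m ∈ M}
  add_mem' := by
    intro a b ha hb m hm
    by_contra h
    have h1 : a.coeff m = 0 := by
      by_contra h'
      exact h (ha m h')
    have h2 : b.coeff m = 0 := by
      by_contra h'
      exact h (hb m h')
    apply hm
    rw [AddMonoidAlgebra.coeff_add, Finsupp.add_apply, h1, h2, add_zero]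
  zero_mem' := by
    intro m hm
    exact absurd (by rw [AddMonoidAlgebra.coeff_zero, Finsupp.zero_apply]) hm
  smul_mem' := by
    intro k a ha m hm
    refine ha m fun h => hm ?_
    rw [AddMonoidAlgebra.coeff_smul_apply, h, smul_zero]

/-- the linear form with coefficients `e` -/
noncomputable def lin (e : Fin n → D) : YR D n :=
  ∑ k, AddMonoidAlgebra.single (Finsupp.single k 1) (e k)

/-- the variables -/
noncomputable def zv (D : Type*) [DivisionRing D] (n : ℕ) : Fin n → YR D n := fun k =>
  AddMonoidAlgebra.single (Finsupp.single k 1) 1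

/-- extension of coefficients -/
noncomputable def bD {K : Type*} (D : Type*) [Field K] [DivisionRing D] [Algebra K D] {n : ℕ} :
    MvPolynomial (Fin n) K →+* YR D n :=
  AddMonoidAlgebra.mapRingHom (Fin n →₀ ℕ) (algebraMap K D)

/-- the `D`-space generated by a space of polynomials -/
noncomputable def VD {K : Type*} (D : Type*) [Field K] [DivisionRing D] [Algebra K D] {n : ℕ}
    (V : Submodule K (MvPolynomial (Fin n) K)) : Submodule D (YR D n) :=
  Submodule.span D (bD D '' (V : Set (MvPolynomial (Fin n) K)))

/-- the weight used in the degenerations: the last variable is the heaviest -/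
def wt (B : ℕ) (m : Fin n →₀ ℕ) : ℕ := ∑ i, m i * B ^ (i : ℕ)

/-- lowest monomials of a space of forms -/
def inm (B : ℕ) (V : Submodule D (YR D n)) : Set (Fin n →₀ ℕ) :=
  {m | ∃ u ∈ V, u.coeff m ≠ 0 ∧ ∀ m', wt B m' < wt B m → u.coeff m' = 0}

end poly

end Vale.Agent.P200.M
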