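import Vale.Agent.P200.M.Trans

/-! Division ring points of complete intersections of quadrics. -/

namespace Vale.Agent.P200.M

open MvPolynomial Module
open Vale.Agent.P200.B Vale.Agent.P200.G Vale.Agent.P200.L

universe u

variable {K : Type u} [Field K] {n : ℕ}

section point
variable {D : Type*} [DivisionRing D] [Algebra K D]

/-- the square of a general form -/
theorem lin_sq (b : Fin n → Fin n → Fin n → K) (f : Fin n → MvPolynomial (Fin n) K)
    (hf : ∀ m, f m = ∑ k, ∑ l, C (b m k l) * (X k * X l)) (e Y : Fin n → D)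
    (h1 : ∀ k l, e k * e l + e l * e k = ∑ m, (b m k l + b m l k) • Y m)
    (h2 : ∀ k, e k * e k = ∑ m, b m k k • Y m) :
    lin e * lin e = ∑ m, Y m • bD D (f m) := by
  classical
  set G : Fin n → Fin n → D := fun k l => ∑ m, b m k l • Y m with hG
  have e1 : ∀ m, Y m • bD D (f m) = ∑ k, ∑ l,
      (AddMonoidAlgebra.single (Finsupp.single k 1 + Finsupp.single l 1) (b m k l • Y m) :
        YR D n) := by
    intro m
    have hC : ∀ c : K, bD D (C c : MvPolynomial (Fin n) K) =
        AddMonoidAlgebra.single 0 (algebraMap K D c) := by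
      intro c
      apply AddMonoidAlgebra.ext
      ext m
      rw [bD_coeff, MvPolynomial.coeff_C, AddMonoidAlgebra.coeff_single, Finsupp.single_apply]
      split_ifs
      · rfl
      · exact map_zero _
    rw [hf m, map_sum, Finset.smul_sum]
    refine Finset.sum_congr rfl fun k _ => ?_
    rw [map_sum, Finset.smul_sum]
    refine Finset.sum_congr rfl fun l _ => ?_
    rw [map_mul, map_mul, hC, bD_X, bD_X, zv, zv, AddMonoidAlgebra.single_mul_single,
      AddMonoidAlgebra.single_mul_single, one_mul, mul_one, zero_add,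
      AddMonoidAlgebra.smul_single, smul_eq_mul, ← Algebra.commutes, ← Algebra.smul_def]
  have e2 : ∑ m, Y m • bD D (f m) = ∑ k, ∑ l,
      (AddMonoidAlgebra.single (Finsupp.single k 1 + Finsupp.single l 1) (G k l) : YR D n) := by
    rw [Finset.sum_congr rfl fun m _ => e1 m, Finset.sum_comm]
    refine Finset.sum_congr rfl fun k _ => ?_
    rw [Finset.sum_comm]
    refine Finset.sum_congr rfl fun l _ => ?_
    exact (map_sum (AddMonoidAlgebra.singleAddHom
      (Finsupp.single k 1 + Finsupp.single l 1 : Fin n →₀ ℕ)) (fun m => b m k l • Y m)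
      Finset.univ).symm
  have e3 : lin e * lin e = ∑ k, ∑ l,
      (AddMonoidAlgebra.single (Finsupp.single k 1 + Finsupp.single l 1) (e k * e l) :
        YR D n) := by
    rw [lin, Finset.sum_mul_sum]
    refine Finset.sum_congr rfl fun k _ => Finset.sum_congr rfl fun l _ => ?_
    rw [AddMonoidAlgebra.single_mul_single]
  rw [e2, e3, ← sub_eq_zero, ← Finset.sum_sub_distrib]
  have e4 : ∀ k, (∑ l, (AddMonoidAlgebra.single (Finsupp.single k 1 + Finsupp.single l 1)
      (e k * e l) : YR D n)) - ∑ l, AddMonoidAlgebra.single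
        (Finsupp.single k 1 + Finsupp.single l 1) (G k l) =
      ∑ l, AddMonoidAlgebra.single (Finsupp.single k 1 + Finsupp.single l 1)
        (e k * e l - G k l) := by
    intro k
    rw [← Finset.sum_sub_distrib]
    refine Finset.sum_congr rfl fun l _ => ?_
    exact (AddMonoidAlgebra.single_sub _ _ _).symm
  rw [Finset.sum_congr rfl fun k _ => e4 k, ← Finset.sum_product']
  refine Finset.sum_involution (fun x _ => (x.2, x.1)) ?_ ?_ ?_ ?_
  · rintro ⟨k, l⟩ _
    simp only
    rw [add_comm (Finsupp.single l 1 : Fin n →₀ ℕ) (Finsupp.single k 1),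
      ← AddMonoidAlgebra.single_add]
    have h3 : e k * e l - G k l + (e l * e k - G l k) = 0 := by
      have h4 := h1 k l
      have h5 : G k l + G l k = ∑ m, (b m k l + b m l k) • Y m := by
        rw [hG]
        simp only
        rw [← Finset.sum_add_distrib]
        refine Finset.sum_congr rfl fun m _ => ?_
        rw [add_smul]
      rw [← h5] at h4
      have h6 : e k * e l - G k l + (e l * e k - G l k) =
          e k * e l + e l * e k - (G k l + G l k) := by abel
      rw [h6, h4, sub_self]
    rw [h3, AddMonoidAlgebra.single_zero]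
  · rintro ⟨k, l⟩ _ hne heq
    simp only [Prod.mk.injEq] at heq
    apply hne
    simp only
    rw [heq.1, h2, hG, sub_self, AddMonoidAlgebra.single_zero]
  · intro x _
    exact Finset.mem_product.2 ⟨Finset.mem_univ _, Finset.mem_univ _⟩
  · rintro ⟨k, l⟩ _
    rfl

/-- products with the quadrics -/
theorem mul_smul_mem (f : Fin n → MvPolynomial (Fin n) K) (hf : ∀ i, (f i).IsHomogeneous 2)
    {e : ℕ} {w : YR D n} (hw : w ∈ YD D n e) (y : D) (i : Fin n) :
    w * (y • bD D (f i)) ∈ VD D (piece (Ideal.span (Set.range f)) (e + 2)) := by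
  classical
  have h1 : w = ∑ s ∈ w.coeff.support, AddMonoidAlgebra.single s (w.coeff s) := by
    conv_lhs => rw [← AddMonoidAlgebra.sum_coeff_single w]
    rfl
  rw [h1, Finset.sum_mul]
  refine Submodule.sum_mem _ fun s hs => ?_
  have h2 : (AddMonoidAlgebra.single s (w.coeff s) : YR D n) * (y • bD D (f i)) =
      (w.coeff s * y) • bD D (monomial s (1 : K) * f i) := by
    have h3 : bD D (monomial s (1 : K)) = (AddMonoidAlgebra.single s 1 : YR D n) := by
      apply AddMonoidAlgebra.ext
      ext m
      rw [bD_coeff, MvPolynomial.coeff_monomial, AddMonoidAlgebra.coeff_single,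
        Finsupp.single_apply]
      split_ifs
      · exact map_one _
      · exact map_zero _
    have h4 : (y • bD D (f i) : YR D n) = AddMonoidAlgebra.single 0 y * bD D (f i) := by
      apply AddMonoidAlgebra.ext
      ext m
      rw [AddMonoidAlgebra.coeff_smul_apply, AddMonoidAlgebra.coeff_single_zero_mul, smul_eq_mul]
    have h5 : ((w.coeff s * y) • bD D (monomial s (1 : K) * f i) : YR D n) =
        AddMonoidAlgebra.single 0 (w.coeff s * y) * bD D (monomial s (1 : K) * f i) := by
      apply AddMonoidAlgebra.ext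
      ext m
      rw [AddMonoidAlgebra.coeff_smul_apply, AddMonoidAlgebra.coeff_single_zero_mul, smul_eq_mul]
    rw [h4, h5, map_mul, h3, ← mul_assoc, ← mul_assoc, AddMonoidAlgebra.single_mul_single,
      AddMonoidAlgebra.single_mul_single, add_zero, zero_add, mul_one]
  rw [h2]
  refine Submodule.smul_mem _ _ (Submodule.subset_span ⟨_, ⟨?_, ?_⟩, rfl⟩)
  · exact Ideal.mul_mem_left _ _ (Ideal.subset_span ⟨i, rfl⟩)
  · have h6 : ∑ k, s k = e := hw s (Finsupp.mem_support_iff.1 hs)
    have h7 : (monomial s (1 : K)).IsHomogeneous e := by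
      rw [← h6]
      refine isHomogeneous_monomial _ ?_
      rw [Finsupp.degree_eq_sum]
    exact h7.mul (hf i)

/-- monomials with a square are in the ideal -/
theorem xim_sq_mem (f : Fin n → MvPolynomial (Fin n) K) (hf : ∀ i, (f i).IsHomogeneous 2)
    (E : Fin n → Fin n → D) (hrow : ∀ i j, i ≠ j → ∀ k l, E i k * E j l = E j l * E i k)
    (Y : Fin n → Fin n → D)
    (hsq : ∀ i, lin (E i) * lin (E i) = ∑ m, Y i m • bD D (f m)) {N : ℕ} (m : Fin n →₀ ℕ)
    (hm : ∑ k, m k = N) (i : Fin n) (hi : 2 ≤ m i) :
    xim E m ∈ VD D (piece (Ideal.span (Set.range f)) N) := by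
  set m' := m - Finsupp.single i 2 with hm'
  have h1 : m = (m' + Finsupp.single i 1) + Finsupp.single i 1 := by
    ext k
    rw [Finsupp.add_apply, Finsupp.add_apply, hm', Finsupp.tsub_apply]
    by_cases hk : k = i
    · rw [hk, Finsupp.single_eq_same, Finsupp.single_eq_same]
      omega
    · rw [Finsupp.single_eq_of_ne hk, Finsupp.single_eq_of_ne hk]
      omega
  have hs : ∀ m : Fin n →₀ ℕ, ∑ k, (m + Finsupp.single i 1 : Fin n →₀ ℕ) k = ∑ k, m k + 1 := by
    intro m
    rw [Finset.sum_congr rfl fun k _ => Finsupp.add_apply _ _ _, Finset.sum_add_distrib,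
      Finset.sum_eq_single (f := fun k => (Finsupp.single i 1 : Fin n →₀ ℕ) k) i
        (fun k _ hk => Finsupp.single_eq_of_ne hk)
        (fun h => absurd (Finset.mem_univ i) h), Finsupp.single_eq_same]
  have h2 : ∑ k, m' k + 2 = N := by
    have h3 := hm
    rw [h1, hs, hs] at h3
    omega
  rw [h1, xim_add E hrow, xim_add E hrow, mul_assoc, hsq, Finset.mul_sum, ← h2]
  exact Submodule.sum_mem _ fun k _ => mul_smul_mem f hf (xim_mem E m') _ k

theorem lin_smul_sum (c : Fin n → D) (E : Fin n → Fin n → D) :
    ∑ i, c i • lin (E i) = lin fun k => ∑ i, c i * E i k := by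
  rw [lin]
  have h1 : ∀ i, c i • lin (E i) =
      ∑ k, (AddMonoidAlgebra.single (Finsupp.single k 1) (c i * E i k) : YR D n) := by
    intro i
    rw [lin, Finset.smul_sum]
    refine Finset.sum_congr rfl fun k _ => ?_
    rw [AddMonoidAlgebra.smul_single, smul_eq_mul]
  rw [Finset.sum_congr rfl fun i _ => h1 i, Finset.sum_comm]
  refine Finset.sum_congr rfl fun k _ => ?_
  exact (map_sum (AddMonoidAlgebra.singleAddHom (Finsupp.single k 1 : Fin n →₀ ℕ)) _ _).symm

/-- expansion of a product of sums -/
theorem prod_ofFn_sum {R : Type*} [Ring R] {N : ℕ} : ∀ (n : ℕ) (g : Fin n → Fin N → R),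
    (List.ofFn fun i => ∑ k, g i k).prod =
      ∑ κ : Fin n → Fin N, (List.ofFn fun i => g i (κ i)).prod := by
  intro n
  induction n with
  | zero =>
    intro g
    simp
  | succ n ih =>
    intro g
    rw [List.ofFn_succ, List.prod_cons, ih, Finset.sum_mul_sum,
      ← Finset.sum_product', Finset.univ_product_univ]
    refine Fintype.sum_equiv (Fin.consEquiv (fun _ => Fin N)) _ _ fun x => ?_
    rw [List.ofFn_succ, List.prod_cons]
    rfl

theorem prod_ofFn_single {N : ℕ} : ∀ (m : ℕ) (s : Fin m → Fin N →₀ ℕ) (c : Fin m → D),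
    (List.ofFn fun i => (AddMonoidAlgebra.single (s i) (c i) : YR D N)).prod =
      AddMonoidAlgebra.single (∑ i, s i) (List.ofFn c).prod := by
  intro m
  induction m with
  | zero =>
    intro s c
    simp
    rfl
  | succ m ih =>
    intro s c
    rw [List.ofFn_succ, List.prod_cons, ih, AddMonoidAlgebra.single_mul_single,
      Fin.sum_univ_succ, List.ofFn_succ, List.prod_cons]

theorem xim_comm_lin (E : Fin n → Fin n → D)
    (hrow : ∀ i j, i ≠ j → ∀ k l, E i k * E j l = E j l * E i k) (m : Fin n →₀ ℕ) (i : Fin n) :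
    lin (E i) * xim E m = xim E m * lin (E i) := by
  rw [xim]
  refine Commute.list_prod_right _ _ fun y hy => ?_
  rw [List.mem_ofFn] at hy
  obtain ⟨j, rfl⟩ := hy
  exact Commute.pow_right (lin_comm E hrow i j) _

omit [Algebra K D] [Field K] [DivisionRing D] in
theorem exists_indices {n : ℕ} (N : ℕ) : ∀ m : Fin n →₀ ℕ, ∑ k, m k = N →
    ∃ κ : Fin N → Fin n, ∑ i, Finsupp.single (κ i) 1 = m := by
  induction N with
  | zero =>
    intro m hm
    refine ⟨fun i => i.elim0, ?_⟩
    ext k
    rw [(Finset.sum_eq_zero_iff.1 hm) k (Finset.mem_univ k)]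
    rfl
  | succ N ih =>
    intro m hm
    obtain ⟨i, hi⟩ : ∃ i, m i ≠ 0 := by
      by_contra hcon
      push Not at hcon
      rw [Finset.sum_eq_zero fun i _ => hcon i] at hm
      exact absurd hm (Nat.succ_ne_zero N).symm
    have h1 : m = Finsupp.single i 1 + (m - Finsupp.single i 1) := by
      ext k
      rw [Finsupp.add_apply, Finsupp.tsub_apply]
      by_cases hk : k = i
      · rw [hk, Finsupp.single_eq_same]
        omega
      · rw [Finsupp.single_eq_of_ne hk]
        omega
    have h3 : ∑ k, (m - Finsupp.single i 1 : Fin n →₀ ℕ) k = N := by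
      have h4 : ∑ k, m k = 1 + ∑ k, (m - Finsupp.single i 1 : Fin n →₀ ℕ) k := by
        conv_lhs => rw [h1]
        rw [Finset.sum_congr rfl fun k _ => Finsupp.add_apply _ _ _,
          Finset.sum_add_distrib, Finset.sum_eq_single (f := fun k => (Finsupp.single i 1 :
            Fin n →₀ ℕ) k) i (fun k _ hk => Finsupp.single_eq_of_ne hk)
            (fun h => absurd (Finset.mem_univ i) h), Finsupp.single_eq_same]
      omega
    obtain ⟨κ, hκ⟩ := ih _ h3
    refine ⟨Fin.cons i κ, ?_⟩
    rw [Fin.sum_univ_succ, Fin.cons_zero]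
    simp only [Fin.cons_succ]
    rw [hκ, ← h1]

theorem rows_independent (f : Fin n → MvPolynomial (Fin n) K) (hf : ∀ i, (f i).IsHomogeneous 2)
    (hn : ¬ homogeneousSubmodule (Fin n) K n ≤ piece (Ideal.span (Set.range f)) n)
    (E : Fin n → Fin n → D) (hrow : ∀ i j, i ≠ j → ∀ k l, E i k * E j l = E j l * E i k)
    (Y : Fin n → Fin n → D)
    (hsq : ∀ i, lin (E i) * lin (E i) = ∑ m, Y i m • bD D (f m))
    (hind : LinearIndependent K fun κ : Fin n → Fin n => (List.ofFn fun i => E i (κ i)).prod) :
    LinearIndependent D E := by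
  classical
  rw [Fintype.linearIndependent_iff]
  intro c hc i0
  by_contra hi0
  -- the product of all forms is in the ideal
  set one : Fin n →₀ ℕ := Finsupp.equivFunOnFinite.symm fun _ => 1 with hone
  have hone_apply : ∀ k, one k = 1 := fun k => rfl
  have hsum : ∑ i, c i • lin (E i) = 0 := by
    rw [lin_smul_sum]
    have h1 : (fun k => ∑ i, c i * E i k) = 0 := by
      funext k
      have h2 := congrFun hc k
      rw [Finset.sum_apply] at h2
      exact h2
    rw [h1, lin]
    exact Finset.sum_eq_zero fun k _ => AddMonoidAlgebra.single_zero _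
  set m0 : Fin n →₀ ℕ := one - Finsupp.single i0 1 with hm0
  have hm0' : m0 + Finsupp.single i0 1 = one := by
    ext k
    rw [Finsupp.add_apply, hm0, Finsupp.tsub_apply, hone_apply]
    by_cases hk : k = i0
    · rw [hk, Finsupp.single_eq_same]
    · rw [Finsupp.single_eq_of_ne hk, Nat.sub_zero, add_zero]
  have hs : ∀ (m : Fin n →₀ ℕ) (i : Fin n),
      ∑ k, (m + Finsupp.single i 1 : Fin n →₀ ℕ) k = ∑ k, m k + 1 := by
    intro m i
    rw [Finset.sum_congr rfl fun k _ => Finsupp.add_apply _ _ _, Finset.sum_add_distrib,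
      Finset.sum_eq_single (f := fun k => (Finsupp.single i 1 : Fin n →₀ ℕ) k) i
        (fun k _ hk => Finsupp.single_eq_of_ne hk)
        (fun h => absurd (Finset.mem_univ i) h), Finsupp.single_eq_same]
  have hone_sum : ∑ k, one k = n := by
    rw [Finset.sum_congr rfl fun k _ => hone_apply k, Finset.sum_const, Finset.card_univ,
      Fintype.card_fin, smul_eq_mul, mul_one]
  have hm0_sum : ∑ k, m0 k + 1 = n := by rw [← hs m0 i0, hm0', hone_sum]
  have hcommx : ∀ i, lin (E i) * xim E m0 = xim E (m0 + Finsupp.single i 1) := by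
    intro i
    rw [xim_add E hrow]
    exact (xim_comm_lin E hrow m0 i)
  have hP : xim E one ∈ VD D (piece (Ideal.span (Set.range f)) n) := by
    have h1 : ∑ i, c i • xim E (m0 + Finsupp.single i 1) = 0 := by
      have h2 := congrArg (fun u => u * xim E m0) hsum
      simp only [Finset.sum_mul, zero_mul, smul_mul_assoc] at h2
      rw [← h2]
      exact Finset.sum_congr rfl fun i _ => by rw [hcommx]
    rw [← Finset.add_sum_erase _ _ (Finset.mem_univ i0), hm0'] at h1
    have h3 : c i0 • xim E one = -∑ i ∈ Finset.univ.erase i0,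
        c i • xim E (m0 + Finsupp.single i 1) := eq_neg_of_add_eq_zero_left h1
    have h4 : xim E one = (c i0)⁻¹ • (c i0 • xim E one) := by
      rw [smul_smul, inv_mul_cancel₀ hi0, one_smul]
    rw [h4, h3]
    refine Submodule.smul_mem _ _ (Submodule.neg_mem _ (Submodule.sum_mem _ fun i hi =>
      Submodule.smul_mem _ _ ?_))
    have hii : i ≠ i0 := Finset.ne_of_mem_erase hi
    refine xim_sq_mem f hf E hrow Y hsq _ (by rw [hs, hm0_sum]) i ?_
    rw [Finsupp.add_apply, Finsupp.single_eq_same, hm0, Finsupp.tsub_apply, hone_apply,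
      Finsupp.single_eq_of_ne hii]
    exact le_rfl
  -- the coefficients of the product
  have hexp : xim E one = ∑ κ : Fin n → Fin n,
      AddMonoidAlgebra.single (∑ i, Finsupp.single (κ i) 1)
        (List.ofFn fun i => E i (κ i)).prod := by
    have h1 : xim E one = (List.ofFn fun i => ∑ k,
        (AddMonoidAlgebra.single (Finsupp.single k 1) (E i k) : YR D n)).prod := by
      rw [xim]
      congr 2
      funext i
      rw [hone_apply, pow_one, lin]
    rw [h1, prod_ofFn_sum]
    exact Finset.sum_congr rfl fun κ _ => prod_ofFn_single n _ _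
  apply hn
  intro g hg
  -- every monomial of degree `n` is in the ideal
  have hmon : ∀ m : Fin n →₀ ℕ, ∑ k, m k = n →
      monomial m (1 : K) ∈ piece (Ideal.span (Set.range f)) n := by
    intro m hm
    obtain ⟨κ0, hκ0⟩ := exists_indices n m hm
    obtain ⟨l, hl⟩ : ∃ l : D →ₗ[K] K, ∀ κ : Fin n → Fin n,
        l (List.ofFn fun i => E i (κ i)).prod = if κ = κ0 then 1 else 0 := by
      obtain ⟨l, hl⟩ := LinearMap.exists_extend ((Module.Basis.span hind).coord κ0)
      refine ⟨l, fun κ => ?_⟩
      have h1 := LinearMap.congr_fun hl ((Module.Basis.span hind) κ)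
      have h2 : (Module.Basis.span hind).coord κ0 ((Module.Basis.span hind) κ) =
          if κ = κ0 then 1 else 0 := by
        rw [Module.Basis.coord_apply, Module.Basis.repr_self, Finsupp.single_apply]
      have h3 : (((Module.Basis.span hind) κ : Submodule.span K (Set.range
          fun κ : Fin n → Fin n => (List.ofFn fun i => E i (κ i)).prod)) : D) =
          (List.ofFn fun i => E i (κ i)).prod :=
        congrArg Subtype.val (Module.Basis.span_apply hind κ)
      rw [← h3, ← h2]
      exact h1
    obtain ⟨v, hv, hv'⟩ := (mem_VD_iff _ _).1 hP l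
    have h1 : v = monomial m 1 := by
      ext m'
      rw [hv', hexp, AddMonoidAlgebra.coeff_sum, Finsupp.finsetSum_apply, map_sum,
        MvPolynomial.coeff_monomial]
      have h2 : ∀ κ : Fin n → Fin n, l ((AddMonoidAlgebra.single (∑ i, Finsupp.single (κ i) 1)
          (List.ofFn fun i => E i (κ i)).prod : YR D n).coeff m') =
          if κ = κ0 then (if m = m' then 1 else 0) else 0 := by
        intro κ
        rw [AddMonoidAlgebra.coeff_single, Finsupp.single_apply]
        by_cases hκ : κ = κ0
        · rw [if_pos hκ, hκ, hκ0]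
          split_ifs
          · rw [hl, if_pos rfl]
          · exact map_zero _
        · rw [if_neg hκ]
          split_ifs
          · rw [hl, if_neg hκ]
          · exact map_zero _
      rw [Finset.sum_congr rfl fun κ _ => h2 κ, Finset.sum_ite_eq' Finset.univ κ0]
      simp
    rw [← h1]
    exact hv
  rw [MvPolynomial.as_sum g]
  refine Submodule.sum_mem _ fun m hm => ?_
  have h1 : monomial m (MvPolynomial.coeff m g) = MvPolynomial.coeff m g • monomial m (1 : K) := by
    rw [smul_monomial, smul_eq_mul, mul_one]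
  rw [h1]
  exact Submodule.smul_mem _ _ (hmon m
    ((Finsupp.degree_eq_sum m).symm.trans (degree_of_mem hg hm)))

end point

end Vale.Agent.P200.M
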