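import Vale.Agent.P200.M.SqStab

/-! The lex-plus-powers inequalities for monomial spaces containing the squares. -/

namespace Vale.Agent.P200.M

open MvPolynomial Module
open Vale.Agent.P200.B Vale.Agent.P200.G Vale.Agent.P200.L

universe u

variable {K : Type u} [Field K] {n : ℕ}

theorem layS_le {K : Type*} [Field K] {D : ℕ} {M : Set (Fin (n + 1) →₀ ℕ)}
    (hM : ∀ m ∈ M, ∑ i, m i = D) (i : ℕ) : restrictSupport K (layS M i) ≤ Bd K n D i := by
  have hdeg : ∀ m : Fin n →₀ ℕ, m ∈ layS M i → ∑ k, m k + i = D := by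
    intro m hm
    rw [← lex_sum_sn]
    exact hM _ hm
  rw [Bd]
  split_ifs with hi
  · rw [homogeneousSubmodule_eq_restrict]
    apply restrictSupport_mono
    intro m hm
    have h1 := hdeg m hm
    show ∑ k, m k = D - i
    omega
  · intro x hx
    rw [mem_restrictSupport_iff] at hx
    rw [Submodule.mem_bot, ← MvPolynomial.support_eq_empty, Finset.eq_empty_iff_forall_notMem]
    intro m hm
    have h1 := hdeg m (hx hm)
    omega

/-- the cycles are counted by the layers -/
theorem zs_eq_zc {K : Type*} [Field K] {d p : ℕ} {M : Set (Fin (n + 1) →₀ ℕ)}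
    (hM : ∀ m ∈ M, ∑ i, m i = d + 1) :
    ZS K M d (p + 1) = zc (fun i => restrictSupport K (layS M i)) p d := by
  have e2 : eE K n (X (Fin.last n)) = Polynomial.X := eE_X_last
  have e3 := finrank_pc_map (K := K) (R := MvPolynomial (Fin (n + 1)) K)
    (R' := Polynomial (MvPolynomial (Fin n) K)) (eE K n) (fun i : Fin n => (X i.castSucc))
    (X (Fin.last n)) (restrictSupport K M) (homogeneousSubmodule (Fin (n + 1)) K d) p
  rw [eE_X_fun, e2, map_eE_restrictSupport, map_eE_homogeneous] at e3
  rw [ZS, finrank_rc_succ, ← e3]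
  exact zc_grs _ fun i => layS_le hM i

/-- the contribution of the layers: the constant does not depend on `M` -/
theorem zs_layers (K : Type*) [Field K] (n d p : ℕ) : ∃ C : ℕ,
    ∀ M : Set (Fin (n + 1) →₀ ℕ), SqSet (n + 1) (d + 1) M →
      ZS K M d (p + 1) = ZS K (layS M 0) d (p + 1) + C +
        finrank K (rc X (restrictSupport K (layS M 0)) (restrictSupport K (layS M 1)) p) +
        (if d = 0 then 0 else ZS K (layS M 1) (d - 1) p) := by
  refine ⟨∑ i ∈ Finset.range (d + 1), n.choose (p + 1) * finrank K (Bd K n d (i + 1)) +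
    ∑ i ∈ Finset.range (d - 1), finrank K (rc X
      (restrictSupport K {m : Fin n →₀ ℕ | ∑ k, m k + (i + 2) = d + 1})
      (restrictSupport K {m : Fin n →₀ ℕ | ∑ k, m k + (i + 3) = d + 1}) p), fun M hM => ?_⟩
  rw [zs_eq_zc hM.1, zc, Finset.sum_add_distrib]
  have h1 : ∑ i ∈ Finset.range (d + 1), finrank K (rc X (restrictSupport K (layS M i))
        (restrictSupport K (layS M (i + 1))) p) =
      (∑ i ∈ Finset.range (d - 1), finrank K (rc X
        (restrictSupport K {m : Fin n →₀ ℕ | ∑ k, m k + (i + 2) = d + 1})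
        (restrictSupport K {m : Fin n →₀ ℕ | ∑ k, m k + (i + 3) = d + 1}) p)) +
      (if d = 0 then 0 else ZS K (layS M 1) (d - 1) p) +
      finrank K (rc X (restrictSupport K (layS M 0)) (restrictSupport K (layS M 1)) p) := by
    rw [Finset.sum_range_succ']
    congr 1
    rcases d with _ | d
    · rw [if_pos rfl, Finset.sum_range_zero, Finset.sum_range_zero, add_zero]
    · rw [if_neg (Nat.succ_ne_zero d), Finset.sum_range_succ']
      congr 1
      · refine Finset.sum_congr (by rw [Nat.add_sub_cancel]) fun i _ => ?_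
        have e1 : layS M (i + 1 + 1) = {m : Fin n →₀ ℕ | ∑ k, m k + (i + 2) = d + 1 + 1} :=
          hM.layS_full (by omega)
        have e2 : layS M (i + 1 + 1 + 1) = {m : Fin n →₀ ℕ | ∑ k, m k + (i + 3) = d + 1 + 1} :=
          hM.layS_full (by omega)
        rw [e1, e2]
      · have e1 : layS M (0 + 1 + 1) = {m : Fin n →₀ ℕ | ∑ k, m k + 2 = d + 1 + 1} :=
          hM.layS_full (by omega)
        have e2 : restrictSupport K {m : Fin n →₀ ℕ | ∑ k, m k + 2 = d + 1 + 1} =
            homogeneousSubmodule (Fin n) K (d + 1 - 1) := by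
          rw [homogeneousSubmodule_eq_restrict]
          congr 1
          ext m
          show ∑ k, m k + 2 = d + 1 + 1 ↔ ∑ k, m k = d + 1 - 1
          omega
        rw [e1, e2, ZS]
  have h2 : ZS K (layS M 0) d (p + 1) = finrank K (rc X (restrictSupport K (layS M 0))
      (homogeneousSubmodule (Fin n) K d) (p + 1)) := rfl
  rw [h1, ← h2]
  omega

theorem zs_zero {K : Type*} [Field K] (M M' : Set (Fin n →₀ ℕ)) (d : ℕ) :
    ZS K M d 0 = ZS K M' d 0 := by
  have h1 : ∀ U : Submodule K (MvPolynomial (Fin n) K),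
      rc X U (homogeneousSubmodule (Fin n) K d) 0 =
        chW n 0 (homogeneousSubmodule (Fin n) K d) := by
    intro U
    refine le_antisymm (fun c hc => hc.1) fun c hc => ⟨hc, fun t => ?_⟩
    rw [kd_card_zero hc.1]
    exact U.zero_mem
  rw [ZS, ZS, h1, h1]

theorem zs_mono {K : Type*} [Field K] {M M' : Set (Fin n →₀ ℕ)} (h : M ⊆ M') (d p : ℕ) :
    ZS K M d p ≤ ZS K M' d p := by
  rw [ZS, ZS]
  exact Submodule.finrank_mono fun u hu => ⟨hu.1, fun t => restrictSupport_mono K h (hu.2 t)⟩

/-- all families with entries in a stable layer are cycles modulo the previous one -/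
theorem finrank_rc_stable {K : Type*} [Field K] {M0 M1 : Set (Fin n →₀ ℕ)} (hf : M1.Finite)
    (hst : ∀ m ∈ M1, ∀ j, m + Finsupp.single j 1 ∈ M0) (p : ℕ) :
    finrank K (rc X (restrictSupport K M0) (restrictSupport K M1) p) =
      n.choose p * M1.ncard := by
  have h0 : rc X (restrictSupport K M0) (restrictSupport K M1) p =
      chW n p (restrictSupport K M1) := by
    refine le_antisymm (fun u hu => hu.1) fun u hu => ⟨hu, fun t => ?_⟩
    rw [kd_apply]
    refine Submodule.sum_mem _ fun j _ => sign_mul_mem' _ _ ?_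
    have h2 := hu.2 (insert j t)
    have h3 : (restrictSupport K M1).map (LinearMap.mulLeft K (X j)) ≤ restrictSupport K M0 := by
      rw [restrictSupport_eq_span, Submodule.map_span, Submodule.span_le]
      rintro _ ⟨_, ⟨m, hm, rfl⟩, rfl⟩
      show X j * monomial m (1 : K) ∈ restrictSupport K M0
      have h4 : X j * monomial m (1 : K) = monomial (m + Finsupp.single j 1) 1 := by
        rw [X, monomial_mul, one_mul, add_comm]
      rw [h4]
      exact (monomial_mem_restrictSupport K).2 (Or.inl (hst m hm j))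
    exact h3 ⟨_, h2, rfl⟩
  have hfin : Module.Finite K (restrictSupport K M1) := by
    have := hf.to_subtype
    exact Module.Finite.of_basis (basisRestrictSupport K M1)
  rw [h0, finrank_chW, finrank_restrictSupport _ hf]

/-- **the cycle inequality for squares**, by induction on `n` -/
theorem sq_zle (hA : HasAnti K) (n : ℕ) : ∀ (d p : ℕ) (M : Set (Fin n →₀ ℕ)),
    SqSet n (d + 1) M → ZS K M d p ≤ ZS K (sqLex n (d + 1) M.ncard) d p := by
  induction n with
  | zero =>
    intro d p M hM
    have h1 : ∀ M : Set (Fin 0 →₀ ℕ), SqSet 0 (d + 1) M → M = ∅ := by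
      intro M hM
      rw [Set.eq_empty_iff_forall_notMem]
      intro m hm
      have h2 := hM.1 m hm
      rw [Finset.univ_eq_empty, Finset.sum_empty] at h2
      omega
    rw [h1 M hM, h1 _ (sqLex_sqSet 0 (d + 1) _)]
  | succ n ih =>
    intro d p M hM
    rcases p with _ | p
    · exact (zs_zero _ _ d).le
    obtain ⟨M', hM', hc', hz', hst'⟩ := exists_stable_sq (K := K) hA hM
    refine (hz' (p + 1)).trans ?_
    rw [← hc']
    have hL : SqSet (n + 1) (d + 1) (sqLex (n + 1) (d + 1) M'.ncard) := sqLex_sqSet _ _ _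
    have hLc : (sqLex (n + 1) (d + 1) M'.ncard).ncard = M'.ncard := ncard_sqLex hM'
    have hL0M := sq_layer_zero hM' hst'
    have hL1M := sq_layer_one hM' hst'
    have hLst : ∀ m ∈ layS (sqLex (n + 1) (d + 1) M'.ncard) 1, ∀ j,
        m + Finsupp.single j 1 ∈ layS (sqLex (n + 1) (d + 1) M'.ncard) 0 :=
      fun m hm j => sqLex_stable m hm j
    revert hL hLc hL0M hL1M hLst
    generalize sqLex (n + 1) (d + 1) M'.ncard = L
    intro hL hLc hL0M hL1M hLst
    obtain ⟨C, hC⟩ := zs_layers K n d p
    rw [hC M' hM', hC L hL]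
    have hM0 : SqSet n (d + 1) (layS M' 0) := SqSet.layS (D := d + 1) (i := 0) hM'
    have hM1 : SqSet n d (layS M' 1) := SqSet.layS (D := d) (i := 1) hM'
    have hL0 : SqSet n (d + 1) (layS L 0) := SqSet.layS (D := d + 1) (i := 0) hL
    have hL1 : SqSet n d (layS L 1) := SqSet.layS (D := d) (i := 1) hL
    have hQ0 : SqSet n (d + 1) (sqLex n (d + 1) (layS M' 0).ncard) := sqLex_sqSet _ _ _
    -- the two layers
    have i1 := ih d (p + 1) (layS M' 0) hM0
    have hfinQ : Module.Finite K (restrictSupport K (sqLex n (d + 1) (layS M' 0).ncard)) := by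
      have := hQ0.finite.to_subtype
      exact Module.Finite.of_basis (basisRestrictSupport K _)
    have i2 := finrank_rc_mono (K := K) (X : Fin n → MvPolynomial (Fin n) K)
      (restrictSupport_mono K hL0M) (homogeneousSubmodule (Fin n) K d) p
    rw [finrank_restrictSupport _ hQ0.finite, finrank_restrictSupport _ hL0.finite,
      ncard_sqLex hM0] at i2
    have hfinM1 : Module.Finite K (restrictSupport K (layS M' 1)) := by
      have := hM1.finite.to_subtype
      exact Module.Finite.of_basis (basisRestrictSupport K _)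
    have i3 := finrank_rc_le (K := K) (X : Fin n → MvPolynomial (Fin n) K)
      (restrictSupport K (layS M' 0)) (restrictSupport K (layS M' 1)) p
    rw [finrank_restrictSupport _ hM1.finite] at i3
    have i4 := finrank_rc_stable (K := K) hL1.finite hLst p
    have i5 : n.choose p * (layS M' 0).ncard + n.choose p * (layS M' 1).ncard =
        n.choose p * (layS L 0).ncard + n.choose p * (layS L 1).ncard := by
      have h1 := hM'.ncard_layS
      have h2 := hL.ncard_layS
      rw [← mul_add, ← mul_add]
      congr 1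
      omega
    have i6 : (if d = 0 then 0 else ZS K (layS M' 1) (d - 1) p) ≤
        (if d = 0 then 0 else ZS K (layS L 1) (d - 1) p) := by
      rcases d with _ | d
      · rw [if_pos rfl, if_pos rfl]
      · rw [if_neg (Nat.succ_ne_zero d), if_neg (Nat.succ_ne_zero d)]
        exact (ih d p (layS M' 1) hM1).trans (zs_mono hL1M d p)
    have i7 : ZS K (sqLex n (d + 1) (layS M' 0).ncard) d (p + 1) =
        finrank K (rc X (restrictSupport K (sqLex n (d + 1) (layS M' 0).ncard))
          (homogeneousSubmodule (Fin n) K d) (p + 1)) := rfl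
    have i8 : ZS K (layS L 0) d (p + 1) = finrank K (rc X (restrictSupport K (layS L 0))
          (homogeneousSubmodule (Fin n) K d) (p + 1)) := rfl
    rw [i7] at i1
    rw [i8, i4]
    omega

end Vale.Agent.P200.M
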