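import Vale.Agent.P200.M.Point
import Vale.Agent.P200.M.SqZle
import Vale.Agent.P200.Q.Reduce

/-! The cycle inequalities for complete intersections of quadrics. -/

namespace Vale.Agent.P200.M

open MvPolynomial Module
open Vale.Agent.P200.B Vale.Agent.P200.G Vale.Agent.P200.L

universe u

variable {K : Type u} [Field K] {n c : ℕ}

theorem isMPrimary_of_regular (a : Fin n → ℕ) (f : Fin n → MvPolynomial (Fin n) K)
    (hf : ∀ i, (f i).IsHomogeneous (a i)) (hreg : IsRegularSeq f) :
    IsMPrimary (Ideal.span (Set.range f)) := by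
  refine isMPrimary_of_height (homIdeal_span fun g hg => ?_) fun p hp hle =>
    le_height_of_isRegSeq f hreg p hle
  obtain ⟨i, rfl⟩ := hg
  exact ⟨a i, hf i⟩

theorem not_le_piece [Infinite K] (f : Fin n → MvPolynomial (Fin n) K)
    (hf : ∀ i, (f i).IsHomogeneous 2) (hreg : IsRegularSeq f) :
    ¬ homogeneousSubmodule (Fin n) K n ≤ piece (Ideal.span (Set.range f)) n := by
  intro hle
  have h1 := hilb_span_eq_card_boxD (fun _ => 2) (fun _ => by norm_num) f hf
    (isMPrimary_of_regular (fun _ => 2) f hf hreg) n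
  rw [Q.card_boxD_two, Nat.choose_self, hilb] at h1
  have h2 := Submodule.finrank_mono hle
  omega

/-- passage to a monomial space containing the squares -/
theorem quad_degen [Infinite K] (f : Fin n → MvPolynomial (Fin n) K)
    (hf : ∀ i, (f i).IsHomogeneous 2) (hreg : IsRegularSeq f) {d : ℕ}
    (V : Submodule K (MvPolynomial (Fin n) K))
    (hV1 : piece (Ideal.span (Set.range f)) (d + 1) ≤ V)
    (hV2 : V ≤ homogeneousSubmodule (Fin n) K (d + 1)) :
    ∃ M : Set (Fin n →₀ ℕ), SqSet n (d + 1) M ∧ M.ncard = finrank K V ∧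
      ∀ p, finrank K (rc X V (homogeneousSubmodule (Fin n) K d) p) ≤ ZS K M d p := by
  choose b hb using fun m => Q.exists_coeffs (hf m)
  obtain ⟨D, _, _, E, Y, -, hrow, h3, h4, h5⟩ :=
    Q.exists_point b f hb (isMPrimary_of_regular (fun _ => 2) f hf hreg)
  have hsq : ∀ i, lin (E i) * lin (E i) = ∑ m, Y i m • bD D (f m) := fun i =>
    lin_sq b f hb (E i) (Y i) (fun k l => h3 i k l) (fun k => h4 i k)
  have hind := rows_independent f hf (not_le_piece f hf hreg) E hrow Y hsq h5
  refine ⟨trM D E (d + 2) V, ⟨trM_degree E hrow hind hV2, fun m hm ⟨i, hi⟩ => ?_⟩,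
    trM_ncard E hrow hind (Nat.lt_succ_self _) hV2,
    fun p => trM_cycles E hrow hind (Nat.lt_succ_self _) hV2⟩
  exact mem_trM E (VD_mono hV1 (xim_sq_mem f hf E hrow Y hsq m hm i hi))

theorem hasAnti [Infinite K] : HasAnti K := by
  classical
  set b : Fin 2 → Fin 2 → Fin 2 → K := fun m k l => if k = m ∧ l = m then 1 else 0 with hb
  set f : Fin 2 → MvPolynomial (Fin 2) K := fun m => X m ^ 2 with hf
  have h1 : ∀ m, f m = ∑ k, ∑ l, C (b m k l) * (X k * X l) := by
    intro m
    rw [Finset.sum_eq_single m, Finset.sum_eq_single m]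
    · rw [hb]
      simp only [and_self, if_true, C_1, one_mul]
      rw [hf]
      ring
    · intro l _ hl
      rw [hb]
      simp only [hl, and_false, if_false, C_0, zero_mul]
    · intro h
      exact absurd (Finset.mem_univ m) h
    · intro k _ hk
      refine Finset.sum_eq_zero fun l _ => ?_
      rw [hb]
      simp only [hk, false_and, if_false, C_0, zero_mul]
    · intro h
      exact absurd (Finset.mem_univ m) h
  have hm : IsMPrimary (Ideal.span (Set.range f)) := by
    rw [isMPrimary_iff_radical]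
    intro i
    exact ⟨2, Ideal.subset_span ⟨i, rfl⟩⟩
  obtain ⟨D, iD, iA, E, Y, -, hrow, h3, h4, h5⟩ := Q.exists_point b f h1 hm
  have hne : ∀ k : Fin 2, E 0 k ≠ 0 := by
    intro k h0
    refine h5.ne_zero (fun i => k) ?_
    simp only
    rw [List.ofFn_succ, List.prod_cons, h0, zero_mul]
  refine ⟨D, iD, iA, E 0 0, E 0 1, hne 0, hne 1, ?_⟩
  have h6 := h3 0 0 1
  rw [Finset.sum_eq_zero] at h6
  · exact eq_neg_of_add_eq_zero_left h6
  · intro m _
    have h7 : b m 0 1 = 0 := by
      rw [hb]
      simp only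
      rw [if_neg]
      rintro ⟨h8, h9⟩
      exact absurd (h8.trans h9.symm) (by decide)
    have h8 : b m 1 0 = 0 := by
      rw [hb]
      simp only
      rw [if_neg]
      rintro ⟨h8, h9⟩
      exact absurd (h8.trans h9.symm) (by decide)
    rw [h7, h8, add_zero, zero_smul]

/-- the case of as many quadrics as variables -/
theorem quad_zle_base [Infinite K] (f : Fin n → MvPolynomial (Fin n) K)
    (hf : ∀ i, (f i).IsHomogeneous 2) (hreg : IsRegularSeq f) (p : ℕ) :
    ZLE K le_rfl (fun _ => 2) p f := by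
  intro d V hV1 hV2
  obtain ⟨M, hM, hcard, hZ⟩ := quad_degen f hf hreg V hV1 hV2
  refine (hZ p).trans ((sq_zle hasAnti n d p M hM).trans ?_)
  rw [hcard]
  exact le_rfl

/-- all numbers of variables, all fields -/
theorem quad_zle
    (hE : ∀ (K : Type u) [Field K] [Infinite K] (n c : ℕ) (h : c ≤ n)
      (f : Fin c → MvPolynomial (Fin n) K), (∀ i, (f i).IsHomogeneous 2) → IsRegularSeq f →
      EGHfor h (fun _ => 2) f)
    (h : c ≤ n) (f : Fin c → MvPolynomial (Fin n) K)
    (hf : ∀ i, (f i).IsHomogeneous 2) (hreg : IsRegularSeq f) (p : ℕ) :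
    ZLE K h (fun _ => 2) p f := by
  have hinf : Infinite (AlgebraicClosure K) := IsAlgClosed.instInfinite
  refine zle_of_baseChange (L := AlgebraicClosure K) h _ p f hf ?_
  refine zle_all (fun _ => 2) (fun _ => by norm_num) p (fun _ _ => True)
    (fun _ _ _ _ => trivial) ?_ ?_ n h _
    (fun i => (hf i).map _) (isRegSeq_baseChange f _ hf hreg) trivial
  · intro n h f hf hreg _
    exact hE _ n c h f hf hreg
  · intro f hf hreg _
    exact quad_zle_base f hf hreg p

/-- **Lex-plus-powers for quadrics.** -/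
theorem quad_lpp
    (hE : ∀ (K : Type u) [Field K] [Infinite K] (n c : ℕ) (h : c ≤ n)
      (f : Fin c → MvPolynomial (Fin n) K), (∀ i, (f i).IsHomogeneous 2) → IsRegularSeq f →
      EGHfor h (fun _ => 2) f)
    (h : c ≤ n) (f : Fin c → MvPolynomial (Fin n) K)
    (hf : ∀ i, (f i).IsHomogeneous 2) (hreg : IsRegularSeq f)
    (I : Ideal (MvPolynomial (Fin n) K)) (hI : HomIdeal I)
    (hfI : ∀ i, f i ∈ I) (J : Ideal (MvPolynomial (Fin n) K))
    (hJ : J.restrictScalars K = lexPlusPowers h (fun _ => 2) I) (p j : ℕ) :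
    betti I p j ≤ betti J p j :=
  betti_le_of_zle h (fun _ => 2) (fun _ => by norm_num) f hf hreg p
    (quad_zle hE h f hf hreg p) (quad_zle hE h f hf hreg (p + 1)) I hI hfI J hJ j

end Vale.Agent.P200.M
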