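import Vale.Agent.P200.M.Defs

/-! Combinatorics of lex sets containing the squares of all variables. -/

namespace Vale.Agent.P200.M

open MvPolynomial Module
open Vale.Agent.P200.B Vale.Agent.P200.G Vale.Agent.P200.L

variable {n : ℕ}

/-- sets of exponents of degree `D` containing all multiples of the squares -/
def SqSet (n D : ℕ) (M : Set (Fin n →₀ ℕ)) : Prop :=
  (∀ m ∈ M, ∑ i, m i = D) ∧ ∀ m : Fin n →₀ ℕ, ∑ i, m i = D → (∃ i, 2 ≤ m i) → m ∈ M

/-- the lex set containing the squares with `v` elements -/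
def sqLex (n D v : ℕ) : Set (Fin n →₀ ℕ) :=
  lexSet (le_refl n) (fun _ : Fin n => 2) D (v - (insideP (le_refl n) (fun _ : Fin n => 2) D).ncard)

/-- the layers with respect to the last variable -/
def layS (M : Set (Fin (n + 1) →₀ ℕ)) (i : ℕ) : Set (Fin n →₀ ℕ) := {m | sn m i ∈ M}

theorem SqSet.finite {D : ℕ} {M : Set (Fin n →₀ ℕ)} (hM : SqSet n D M) : M.Finite :=
  (finite_degree_eq D).subset fun m hm => hM.1 m hm

theorem mem_insideP_two {D : ℕ} {m : Fin n →₀ ℕ} :
    m ∈ insideP (le_refl n) (fun _ : Fin n => 2) D ↔ (∃ i, 2 ≤ m i) ∧ ∑ i, m i = D := Iff.rfl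

theorem SqSet.inside {D : ℕ} {M : Set (Fin n →₀ ℕ)} (hM : SqSet n D M) :
    insideP (le_refl n) (fun _ : Fin n => 2) D ⊆ M := fun m hm => hM.2 m hm.2 hm.1

theorem sqLex_sqSet (n D v : ℕ) : SqSet n D (sqLex n D v) :=
  ⟨fun _ hm => mem_lexSet_degree _ _ hm, fun _ hD h2 => Or.inl ⟨h2, hD⟩⟩

theorem ncard_sqLex {D : ℕ} {M : Set (Fin n →₀ ℕ)} (hM : SqSet n D M) :
    (sqLex n D M.ncard).ncard = M.ncard := by
  have hin : (insideP (le_refl n) (fun _ : Fin n => 2) D).Finite :=
    (finite_degree_eq D).subset fun _ hm => hm.2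
  have hout : (outside (le_refl n) (fun _ : Fin n => 2) D).Finite :=
    (finite_degree_eq D).subset fun _ hm => hm.2
  have h1 := Set.ncard_le_ncard hM.inside hM.finite
  have h2 : M ⊆ insideP (le_refl n) (fun _ : Fin n => 2) D ∪
      outside (le_refl n) (fun _ : Fin n => 2) D := by
    intro m hm
    by_cases h : ∃ i, 2 ≤ m i
    · exact Or.inl ⟨h, hM.1 m hm⟩
    · push Not at h
      exact Or.inr ⟨h, hM.1 m hm⟩
  have h3 := Set.ncard_le_ncard h2 (hin.union hout)
  have h4 := Set.ncard_union_le (insideP (le_refl n) (fun _ : Fin n => 2) D)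
    (outside (le_refl n) (fun _ : Fin n => 2) D)
  rw [sqLex, ncard_lexSet]
  omega

theorem SqSet.layS {D i : ℕ} {M : Set (Fin (n + 1) →₀ ℕ)} (hM : SqSet (n + 1) (D + i) M) :
    SqSet n D (layS M i) := by
  refine ⟨fun m hm => ?_, fun m hD h2 => ?_⟩
  · have h1 := hM.1 _ hm
    rw [lex_sum_sn] at h1
    omega
  · refine hM.2 _ ?_ ?_
    · rw [lex_sum_sn, hD]
    · obtain ⟨k, hk⟩ := h2
      refine ⟨k.castSucc, ?_⟩
      rwa [sn_castSucc]

/-- all higher layers are full -/
theorem SqSet.layS_full {D i : ℕ} {M : Set (Fin (n + 1) →₀ ℕ)} (hM : SqSet (n + 1) D M)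
    (hi : 2 ≤ i) : Vale.Agent.P200.M.layS M i = {m | ∑ k, m k + i = D} := by
  ext m
  constructor
  · intro hm
    have h1 := hM.1 _ hm
    rwa [lex_sum_sn] at h1
  · intro hm
    refine hM.2 _ ?_ ⟨Fin.last n, ?_⟩
    · rw [lex_sum_sn]
      exact hm
    · rwa [sn_last]

theorem SqSet.ncard_layS {D : ℕ} {M : Set (Fin (n + 1) →₀ ℕ)} (hM : SqSet (n + 1) D M) :
    M.ncard = (Vale.Agent.P200.M.layS M 0).ncard + (Vale.Agent.P200.M.layS M 1).ncard +
      {m : Fin (n + 1) →₀ ℕ | ∑ k, m k = D ∧ 2 ≤ m (Fin.last n)}.ncard := by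
  have hinj : ∀ i, Function.Injective fun m : Fin n →₀ ℕ => sn m i :=
    fun i m m' h => (sn_injective h).1
  have h0 : M = ((fun m : Fin n →₀ ℕ => sn m 0) '' Vale.Agent.P200.M.layS M 0 ∪
      (fun m : Fin n →₀ ℕ => sn m 1) '' Vale.Agent.P200.M.layS M 1) ∪
      {m : Fin (n + 1) →₀ ℕ | ∑ k, m k = D ∧ 2 ≤ m (Fin.last n)} := by
    ext x
    constructor
    · intro hx
      obtain ⟨m, i, rfl⟩ := exists_sn x
      have h1 := hM.1 _ hx
      rcases i with _ | _ | i
      · exact Or.inl (Or.inl ⟨m, hx, rfl⟩)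
      · exact Or.inl (Or.inr ⟨m, hx, rfl⟩)
      · exact Or.inr ⟨h1, by rw [sn_last]; omega⟩
    · rintro ((⟨m, hm, rfl⟩ | ⟨m, hm, rfl⟩) | ⟨h1, h2⟩)
      · exact hm
      · exact hm
      · exact hM.2 _ h1 ⟨_, h2⟩
  have hfin : ∀ s ⊆ {m : Fin (n + 1) →₀ ℕ | ∑ k, m k = D}, s.Finite :=
    fun s hs => (finite_degree_eq D).subset hs
  have hf0 : ((fun m : Fin n →₀ ℕ => sn m 0) '' Vale.Agent.P200.M.layS M 0).Finite := by
    refine hM.finite.subset ?_
    rintro _ ⟨m, hm, rfl⟩
    exact hm
  have hf1 : ((fun m : Fin n →₀ ℕ => sn m 1) '' Vale.Agent.P200.M.layS M 1).Finite := by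
    refine hM.finite.subset ?_
    rintro _ ⟨m, hm, rfl⟩
    exact hm
  have hf2 : {m : Fin (n + 1) →₀ ℕ | ∑ k, m k = D ∧ 2 ≤ m (Fin.last n)}.Finite :=
    hfin _ fun m hm => hm.1
  conv_lhs => rw [h0]
  rw [Set.ncard_union_eq _ (hf0.union hf1) hf2, Set.ncard_union_eq _ hf0 hf1,
    Set.ncard_image_of_injective _ (hinj 0), Set.ncard_image_of_injective _ (hinj 1)]
  · rw [Set.disjoint_left]
    rintro _ ⟨m, -, rfl⟩ ⟨m', -, h⟩
    have := (sn_injective h).2
    omega
  · rw [Set.disjoint_left]
    rintro _ (⟨m, -, rfl⟩ | ⟨m, -, rfl⟩) ⟨-, h⟩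
    · rw [sn_last] at h
      omega
    · rw [sn_last] at h
      omega

/-- Clements-Lindström for two stable layers (use `lexSet_closure` over `ℚ` with the squares of
the variables; `egh_case` with `T = ∅` gives `EGHfor`) -/
theorem sq_closure {D : ℕ} {M0 M1 : Set (Fin n →₀ ℕ)} (h0 : SqSet n (D + 1) M0)
    (h1 : SqSet n D M1) (hst : ∀ m ∈ M1, ∀ j, m + Finsupp.single j 1 ∈ M0)
    (m : Fin n →₀ ℕ) (hm : m ∈ sqLex n D M1.ncard) (j : Fin n) :
    m + Finsupp.single j 1 ∈ sqLex n (D + 1) M0.ncard := by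
  classical
  set f : Fin n → MvPolynomial (Fin n) ℚ := fun i => X i ^ 2 with hf
  have hfh : ∀ i, (f i).IsHomogeneous 2 := fun i => by
    have h2 := (isHomogeneous_X ℚ i).pow 2
    rwa [one_mul] at h2
  have hmp : IsMPrimary (Ideal.span (Set.range f)) := by
    rw [isMPrimary_iff_radical]
    intro i
    exact ⟨2, Ideal.subset_span ⟨i, rfl⟩⟩
  have hreg : IsRegularSeq f :=
    isRegSeq_of_isMPrimary (fun _ => 2) (fun _ => by norm_num) f hfh hmp
  have hE : EGHfor (le_refl n) (fun _ : Fin n => 2) f :=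
    egh_case _ _ (fun _ _ _ => le_rfl) (fun _ => le_rfl) f hfh hreg
      (Or.inr ⟨∅, fun i hi => absurd hi (Finset.notMem_empty i), fun i _ =>
        ⟨fun _ => X i, fun _ => isHomogeneous_X _ i, by
          rw [hf, Finset.prod_const, Finset.card_univ, Fintype.card_fin, map_pow, map_X]⟩⟩)
  have hP : powerIdeal ℚ (le_refl n) (fun _ => 2) = Ideal.span (Set.range f) := rfl
  have hpiece : ∀ D, piece (Ideal.span (Set.range f)) D =
      restrictSupport ℚ (insideP (le_refl n) (fun _ => 2) D) := by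
    intro D
    rw [← hP]
    exact degPart_powerIdeal _ _ D
  have hle : ∀ {D : ℕ} {M : Set (Fin n →₀ ℕ)}, SqSet n D M →
      restrictSupport ℚ M ≤ homogeneousSubmodule (Fin n) ℚ D := by
    intro D M hM
    rw [homogeneousSubmodule_eq_restrict]
    exact restrictSupport_mono _ fun m hm => hM.1 m hm
  have key := lexSet_closure (le_refl n) (fun _ => 2) (fun _ => by norm_num) f hfh hreg hE D
    (restrictSupport ℚ M1) (restrictSupport ℚ M0)
    (by rw [hpiece]; exact restrictSupport_mono _ h1.inside) (hle h1)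
    (by rw [hpiece]; exact restrictSupport_mono _ h0.inside) (hle h0)
    (by
      intro j b hb
      rw [mem_restrictSupport_iff] at hb ⊢
      intro x hx
      rw [mul_comm, support_mul_X] at hx
      obtain ⟨y, hy, rfl⟩ := Finset.mem_map.1 hx
      exact hst y (hb hy) j) m
  rw [finrank_restrictSupport _ h1.finite, finrank_restrictSupport _ h0.finite] at key
  exact key hm j

/-- the lex set is stable with respect to the last variable -/
theorem sqLex_stable {D v : ℕ} (m : Fin n →₀ ℕ) (hm : m ∈ layS (sqLex (n + 1) D v) 1)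
    (j : Fin n) : m + Finsupp.single j 1 ∈ layS (sqLex (n + 1) D v) 0 := by
  have h1 : sn m 1 ∈ sqLex (n + 1) D v := hm
  have hdeg : ∑ k, sn (m + Finsupp.single j 1) 0 k = D := by
    have h2 := mem_lexSet_degree _ _ h1
    rw [lex_sum_sn] at h2 ⊢
    rw [sum_add_single]
    omega
  by_cases hin : ∃ l, 2 ≤ sn (m + Finsupp.single j 1) 0 l
  · exact Or.inl ⟨hin, hdeg⟩
  · push Not at hin
    have ho : sn m 1 ∈ outside (le_refl (n + 1)) (fun _ => 2) D := by
      refine ⟨fun l => ?_, mem_lexSet_degree _ _ h1⟩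
      change sn m 1 l < 2
      induction l using Fin.lastCases with
      | last => rw [sn_last]; omega
      | cast l =>
        have h3 := hin l.castSucc
        rw [sn_castSucc, Finsupp.add_apply] at h3
        rw [sn_castSucc]
        omega
    refine lexSet_up (le_refl (n + 1)) _ ⟨fun l => hin l, hdeg⟩ ⟨j.castSucc, ?_, fun k hk => ?_⟩
      h1 ho
    · rw [sn_castSucc, sn_castSucc, add_single_same]
      omega
    · induction k using Fin.lastCases with
      | last => exact absurd hk (not_lt.mpr (Fin.le_last _))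
      | cast k =>
        rw [Fin.castSucc_lt_castSucc_iff] at hk
        rw [sn_castSucc, sn_castSucc, add_single_ne m hk.ne]

/-- the lexicographic set has the smallest layer `0` -/
theorem sq_layer_zero {D : ℕ} {M : Set (Fin (n + 1) →₀ ℕ)} (hM : SqSet (n + 1) (D + 1) M)
    (hst : ∀ m ∈ layS M 1, ∀ j, m + Finsupp.single j 1 ∈ layS M 0) :
    layS (sqLex (n + 1) (D + 1) M.ncard) 0 ⊆ sqLex n (D + 1) (layS M 0).ncard := by
  classical
  intro m hm
  by_contra hcon
  have hM0 : SqSet n (D + 1) (layS M 0) := SqSet.layS (D := D + 1) (i := 0) hM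
  have hM1 : SqSet n D (layS M 1) := hM.layS
  set L0 := sqLex n (D + 1) (layS M 0).ncard with hL0
  set L1 := sqLex n D (layS M 1).ncard with hL1
  have hS0 : SqSet n (D + 1) L0 := sqLex_sqSet _ _ _
  have hS1 : SqSet n D L1 := sqLex_sqSet _ _ _
  have hcl := sq_closure hM0 hM1 hst
  have hu : sn m 0 ∈ sqLex (n + 1) (D + 1) M.ncard := hm
  have hmD : ∑ k, m k = D + 1 := by
    have h1 := mem_lexSet_degree _ _ hu
    rw [lex_sum_sn, add_zero] at h1
    exact h1
  have hmo : m ∈ outside (le_refl n) (fun _ => 2) (D + 1) := by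
    refine ⟨fun l => ?_, hmD⟩
    by_contra hl
    exact hcon (Or.inl ⟨⟨l, not_lt.mp hl⟩, hmD⟩)
  have huo : sn m 0 ∈ outside (le_refl (n + 1)) (fun _ => 2) (D + 1) := by
    refine ⟨fun l => ?_, ?_⟩
    · change sn m 0 l < 2
      induction l using Fin.lastCases with
      | last => rw [sn_last]; omega
      | cast l =>
        rw [sn_castSucc]
        exact hmo.1 l
    · rw [lex_sum_sn, hmD, add_zero]
  -- the competing set
  set N : Set (Fin (n + 1) →₀ ℕ) := {x | ∃ (y : Fin n →₀ ℕ) (i : ℕ), x = sn y i ∧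
    ∑ k, y k + i = D + 1 ∧ (2 ≤ i ∨ (i = 0 ∧ y ∈ L0) ∨ (i = 1 ∧ y ∈ L1))} with hN
  have hNsq : SqSet (n + 1) (D + 1) N := by
    refine ⟨?_, fun x hx h2 => ?_⟩
    · rintro _ ⟨y, i, rfl, h1, -⟩
      rw [lex_sum_sn]
      exact h1
    · obtain ⟨y, i, rfl⟩ := exists_sn x
      rw [lex_sum_sn] at hx
      refine ⟨y, i, rfl, hx, ?_⟩
      by_cases hi : 2 ≤ i
      · exact Or.inl hi
      · obtain ⟨l, hl⟩ := h2
        induction l using Fin.lastCases with
        | last =>
          rw [sn_last] at hl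
          exact Or.inl hl
        | cast l =>
          rw [sn_castSucc] at hl
          have hi2 : i = 0 ∨ i = 1 := by omega
          rcases hi2 with rfl | rfl
          · exact Or.inr (Or.inl ⟨rfl, hS0.2 y (by omega) ⟨l, hl⟩⟩)
          · exact Or.inr (Or.inr ⟨rfl, hS1.2 y (by omega) ⟨l, hl⟩⟩)
  have hlay : ∀ (y : Fin n →₀ ℕ) (i : ℕ), sn y i ∈ N ↔
      ∑ k, y k + i = D + 1 ∧ (2 ≤ i ∨ (i = 0 ∧ y ∈ L0) ∨ (i = 1 ∧ y ∈ L1)) := by
    intro y i
    constructor
    · rintro ⟨y', i', h1, h2⟩
      obtain ⟨rfl, rfl⟩ := sn_injective h1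
      exact h2
    · intro h
      exact ⟨y, i, rfl, h⟩
  have hN0 : layS N 0 = L0 := by
    ext y
    change sn y 0 ∈ N ↔ _
    rw [hlay]
    constructor
    · rintro ⟨-, h | h | h⟩
      · omega
      · exact h.2
      · omega
    · intro h
      exact ⟨by rw [hS0.1 y h], Or.inr (Or.inl ⟨rfl, h⟩)⟩
  have hN1 : layS N 1 = L1 := by
    ext y
    change sn y 1 ∈ N ↔ _
    rw [hlay]
    constructor
    · rintro ⟨-, h | h | h⟩
      · omega
      · omega
      · exact h.2
    · intro h
      exact ⟨by rw [hS1.1 y h], Or.inr (Or.inr ⟨rfl, h⟩)⟩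
  have hcard : N.ncard = M.ncard := by
    rw [hNsq.ncard_layS, hM.ncard_layS, hN0, hN1, hL0, hL1, ncard_sqLex hM0, ncard_sqLex hM1]
  -- it is contained in the lexicographic set without `sn m 0`
  have hsub : N ⊆ sqLex (n + 1) (D + 1) M.ncard \ {sn m 0} := by
    rintro _ ⟨y, i, rfl, h1, h2⟩
    have hdeg : ∑ k, sn y i k = D + 1 := by
      rw [lex_sum_sn]
      exact h1
    have hne : sn y i ≠ sn m 0 := by
      intro H
      obtain ⟨rfl, rfl⟩ := sn_injective H
      rcases h2 with h2 | h2 | h2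
      · omega
      · exact hcon h2.2
      · omega
    refine ⟨?_, hne⟩
    by_cases hin : ∃ l, 2 ≤ sn y i l
    · exact Or.inl ⟨hin, hdeg⟩
    · push Not at hin
      have ho : sn y i ∈ outside (le_refl (n + 1)) (fun _ => 2) (D + 1) := ⟨fun l => hin l, hdeg⟩
      rcases lexGT_total hne with h3 | h3
      · exact lexSet_up _ _ ho h3 hu huo
      · exfalso
        apply hcon
        obtain ⟨k, hk, hk'⟩ := h3
        have hi1 : i < 2 := by
          have := hin (Fin.last n)
          rwa [sn_last] at this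
        have hyo : y ∈ outside (le_refl n) (fun _ => 2) (D + 1 - i) := by
          refine ⟨fun l => ?_, by omega⟩
          have := hin l.castSucc
          rwa [sn_castSucc] at this
        have hgt : lexGT m y := by
          induction k using Fin.lastCases with
          | last =>
            rw [sn_last, sn_last] at hk
            omega
          | cast k =>
            rw [sn_castSucc, sn_castSucc] at hk
            refine ⟨k, hk, fun j hj => ?_⟩
            have h5 := hk' j.castSucc (Fin.castSucc_lt_castSucc_iff.2 hj)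
            rw [sn_castSucc, sn_castSucc] at h5
            exact h5
        set q : ℕ → ℕ := fun t => if t = 0 then (layS M 0).ncard -
            (insideP (le_refl n) (fun _ : Fin n => 2) (D + 1)).ncard else
          if t = 1 then (layS M 1).ncard -
            (insideP (le_refl n) (fun _ : Fin n => 2) D).ncard else 0 with hq
        have hq0 : lexSet (le_refl n) (fun _ : Fin n => 2) (D + 1) (q 0) = L0 := rfl
        have hq1 : lexSet (le_refl n) (fun _ : Fin n => 2) (D + 1 - 1) (q 1) = L1 := rfl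
        rw [← hq0]
        refine lex_fill (le_refl n) (fun _ => 2) (D + 1) q ?_ m hmo i (by omega) y ?_ hyo hgt
        · intro t ht x hx j
          rcases Nat.eq_zero_or_pos t with rfl | ht0
          · exact hcl x hx j
          · have hq2 : q (t + 1) = 0 := by
              rw [hq]
              simp only
              rw [if_neg (by omega), if_neg (by omega)]
            rw [hq2] at hx
            rcases hx with hx | hx
            · obtain ⟨⟨l, hl⟩, hx2⟩ := hx
              refine Or.inl ⟨⟨l, ?_⟩, ?_⟩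
              · rw [Finsupp.add_apply]
                omega
              · rw [sum_add_single, hx2]
                omega
            · exact absurd hx.2 (Nat.not_lt_zero _)
        · have hi2 : i = 0 ∨ i = 1 := by omega
          rcases hi2 with rfl | rfl
          · rcases h2 with h2 | h2 | h2
            · omega
            · exact h2.2
            · omega
          · rcases h2 with h2 | h2 | h2
            · omega
            · omega
            · exact h2.2
  have hfin := (sqLex_sqSet (n + 1) (D + 1) M.ncard).finite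
  have h1 := Set.ncard_le_ncard hsub (hfin.subset Set.sdiff_subset)
  have h2 := Set.ncard_sdiff_singleton_lt_of_mem hu hfin
  rw [ncard_sqLex hM] at h2
  omega

/-- and the largest layer `1` -/
theorem sq_layer_one {D : ℕ} {M : Set (Fin (n + 1) →₀ ℕ)} (hM : SqSet (n + 1) (D + 1) M)
    (hst : ∀ m ∈ layS M 1, ∀ j, m + Finsupp.single j 1 ∈ layS M 0) :
    sqLex n D (layS M 1).ncard ⊆ layS (sqLex (n + 1) (D + 1) M.ncard) 1 := by
  have h0 := sq_layer_zero hM hst
  have hM0 : SqSet n (D + 1) (layS M 0) := SqSet.layS (D := D + 1) (i := 0) hM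
  have hM1 : SqSet n D (layS M 1) := hM.layS
  have hL := sqLex_sqSet (n + 1) (D + 1) M.ncard
  have hL1 : SqSet n D (layS (sqLex (n + 1) (D + 1) M.ncard) 1) := hL.layS
  have h1 := Set.ncard_le_ncard h0 (sqLex_sqSet _ _ _).finite
  have h2 := hM.ncard_layS
  have h3 := hL.ncard_layS
  rw [ncard_sqLex hM] at h3
  rw [ncard_sqLex hM0] at h1
  have h4 : (sqLex n D (layS M 1).ncard).ncard ≤
      (layS (sqLex (n + 1) (D + 1) M.ncard) 1).ncard := by
    rw [ncard_sqLex hM1]
    omega
  intro m hm
  by_contra hcon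
  -- then the layer of the lexicographic set is contained in the other one
  have hmD : ∑ k, m k = D := (sqLex_sqSet n D _).1 m hm
  have hmo : m ∈ outside (le_refl n) (fun _ => 2) D := by
    refine ⟨fun l => ?_, hmD⟩
    by_contra hl
    exact hcon (hL1.2 m hmD ⟨l, not_lt.mp hl⟩)
  have hsub : layS (sqLex (n + 1) (D + 1) M.ncard) 1 ⊆ sqLex n D (layS M 1).ncard \ {m} := by
    intro y hy
    have hyD : ∑ k, y k = D := hL1.1 y hy
    have hne : y ≠ m := by
      rintro rfl
      exact hcon hy
    refine ⟨?_, hne⟩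
    by_cases hin : ∃ l, 2 ≤ y l
    · exact Or.inl ⟨hin, hyD⟩
    · push Not at hin
      have hyo : y ∈ outside (le_refl n) (fun _ => 2) D := ⟨fun l => hin l, hyD⟩
      rcases lexGT_total hne with h3 | h3
      · exact lexSet_up _ _ hyo h3 hm hmo
      · exfalso
        apply hcon
        have hsno : ∀ z : Fin n →₀ ℕ, z ∈ outside (le_refl n) (fun _ => 2) D →
            sn z 1 ∈ outside (le_refl (n + 1)) (fun _ => 2) (D + 1) := by
          intro z hz
          refine ⟨fun l => ?_, by rw [lex_sum_sn, hz.2]⟩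
          change sn z 1 l < 2
          induction l using Fin.lastCases with
          | last => rw [sn_last]; omega
          | cast l =>
            rw [sn_castSucc]
            exact hz.1 l
        refine lexSet_up _ _ (hsno m hmo) ?_ hy (hsno y hyo)
        obtain ⟨k, hk, hk'⟩ := h3
        refine ⟨k.castSucc, by rw [sn_castSucc, sn_castSucc]; exact hk, fun j hj => ?_⟩
        induction j using Fin.lastCases with
        | last => exact absurd hj (not_lt.mpr (Fin.le_last _))
        | cast j =>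
          rw [Fin.castSucc_lt_castSucc_iff] at hj
          rw [sn_castSucc, sn_castSucc, hk' j hj]
  have hfin := (sqLex_sqSet n D (layS M 1).ncard).finite
  have h5 := Set.ncard_le_ncard hsub (hfin.subset Set.sdiff_subset)
  have h6 := Set.ncard_sdiff_singleton_lt_of_mem hm hfin
  omega

end Vale.Agent.P200.M
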