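import Vale.Agent.P200.M.Trans

/-! Stable monomial spaces containing the squares. -/

namespace Vale.Agent.P200.M

open MvPolynomial Module
open Vale.Agent.P200.B Vale.Agent.P200.G Vale.Agent.P200.L

universe u

variable {K : Type u} [Field K] {n : ℕ}

/-- a division ring with two anticommuting nonzero elements -/
def HasAnti (K : Type u) [Field K] : Prop :=
  ∃ (D : Type u) (_ : DivisionRing D) (_ : Algebra K D) (a b : D),
    a ≠ 0 ∧ b ≠ 0 ∧ a * b = -(b * a)

section step
variable {D : Type*} [DivisionRing D]

/-- the matrix `z' = a z + b x_j` -/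
def smat (j : Fin n) (a b : D) : Fin (n + 1) → Fin (n + 1) → D := fun i =>
  if i = Fin.last n then Pi.single (Fin.last n) a + Pi.single j.castSucc b else Pi.single i 1

theorem smat_ne (j : Fin n) (a b : D) {i : Fin (n + 1)} (hi : i ≠ Fin.last n) :
    smat j a b i = Pi.single i 1 := if_neg hi

theorem smat_last (j : Fin n) (a b : D) :
    smat j a b (Fin.last n) = Pi.single (Fin.last n) a + Pi.single j.castSucc b := if_pos rfl

theorem smat_row (j : Fin n) (a b : D) (i i' : Fin (n + 1)) (hii : i ≠ i') (k l : Fin (n + 1)) :
    smat j a b i k * smat j a b i' l = smat j a b i' l * smat j a b i k := by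
  have key : ∀ i : Fin (n + 1), i ≠ Fin.last n → ∀ (k : Fin (n + 1)) (c : D),
      smat j a b i k * c = c * smat j a b i k := by
    intro i hi k c
    rw [smat_ne j a b hi]
    by_cases hk : k = i
    · rw [hk, Pi.single_eq_same, one_mul, mul_one]
    · rw [Pi.single_eq_of_ne hk, zero_mul, mul_zero]
  by_cases hi : i = Fin.last n
  · have hi' : i' ≠ Fin.last n := fun h => hii (hi.trans h.symm)
    exact (key i' hi' l _).symm
  · exact key i hi k _

theorem smat_ind (j : Fin n) {a : D} (b : D) (ha : a ≠ 0) : LinearIndependent D (smat j a b) := by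
  rw [Fintype.linearIndependent_iff]
  intro g hg
  have h1 : ∀ k, ∑ i, g i * smat j a b i k = 0 := by
    intro k
    have := congrFun hg k
    rw [Finset.sum_apply] at this
    exact this
  have hlast : g (Fin.last n) = 0 := by
    have h2 := h1 (Fin.last n)
    rw [Fin.sum_univ_castSucc, Finset.sum_eq_zero, zero_add, smat_last, Pi.add_apply,
      Pi.single_eq_same, Pi.single_eq_of_ne (Fin.castSucc_lt_last j).ne', add_zero] at h2
    · exact (mul_eq_zero.1 h2).resolve_right ha
    · intro i _
      rw [smat_ne j a b (Fin.castSucc_lt_last i).ne,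
        Pi.single_eq_of_ne (Fin.castSucc_lt_last i).ne', mul_zero]
  intro i
  refine Fin.lastCases hlast (fun i => ?_) i
  have h2 := h1 i.castSucc
  rw [Fin.sum_univ_castSucc, hlast, zero_mul, add_zero, Finset.sum_eq_single i] at h2
  · rwa [smat_ne j a b (Fin.castSucc_lt_last i).ne, Pi.single_eq_same, mul_one] at h2
  · intro i' _ hi'
    rw [smat_ne j a b (Fin.castSucc_lt_last i').ne, Pi.single_eq_of_ne, mul_zero]
    intro h
    exact hi' (Fin.castSucc_injective n h).symm
  · intro h
    exact absurd (Finset.mem_univ i) h

theorem lin_single (i : Fin n) (c : D) :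
    lin (Pi.single i c) = AddMonoidAlgebra.single (Finsupp.single i 1) c := by
  rw [lin, Finset.sum_eq_single i]
  · rw [Pi.single_eq_same]
  · intro k _ hk
    rw [Pi.single_eq_of_ne hk, AddMonoidAlgebra.single_zero]
  · intro h
    exact absurd (Finset.mem_univ i) h

theorem lin_add (e e' : Fin n → D) : lin (e + e') = lin e + lin e' := by
  rw [lin, lin, lin, ← Finset.sum_add_distrib]
  refine Finset.sum_congr rfl fun k _ => ?_
  rw [Pi.add_apply, AddMonoidAlgebra.single_add]

theorem xim_zero (E : Fin n → Fin n → D) : xim E 0 = 1 := by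
  rw [xim]
  have h : (List.ofFn fun i => lin (E i) ^ (0 : Fin n →₀ ℕ) i) = List.replicate n 1 := by
    rw [List.eq_replicate_iff]
    refine ⟨List.length_ofFn, fun b hb => ?_⟩
    rw [List.mem_ofFn] at hb
    obtain ⟨i, rfl⟩ := hb
    rw [Finsupp.zero_apply, pow_zero]
  rw [h, List.prod_replicate, one_pow]

/-- monomials without the last variable do not change -/
theorem xim_smat (j : Fin n) (a b : D) (N : ℕ) : ∀ m : Fin (n + 1) →₀ ℕ, m (Fin.last n) = 0 →
    ∑ i, m i = N → xim (smat j a b) m = AddMonoidAlgebra.single m 1 := by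
  induction N with
  | zero =>
    intro m _ hm
    have h0 : m = 0 := by
      ext i
      exact (Finset.sum_eq_zero_iff.1 hm) i (Finset.mem_univ i)
    rw [h0, xim_zero]
    rfl
  | succ N ih =>
    intro m hm0 hm
    obtain ⟨i, hi⟩ : ∃ i, m i ≠ 0 := by
      by_contra hcon
      push Not at hcon
      rw [Finset.sum_eq_zero fun i _ => hcon i] at hm
      exact absurd hm (Nat.succ_ne_zero N).symm
    have hil : i ≠ Fin.last n := by
      rintro rfl
      exact hi hm0
    have h1 : m = (m - Finsupp.single i 1) + Finsupp.single i 1 := by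
      ext k
      rw [Finsupp.add_apply, Finsupp.tsub_apply]
      by_cases hk : k = i
      · rw [hk, Finsupp.single_eq_same]
        omega
      · rw [Finsupp.single_eq_of_ne hk]
        omega
    set m' := m - Finsupp.single i 1 with hm'
    have h2 : m' (Fin.last n) = 0 := by
      rw [hm', Finsupp.tsub_apply, hm0, Nat.zero_sub]
    have h3 : ∑ k, m' k = N := by
      have h4 : ∑ k, m k = ∑ k, m' k + 1 := by
        rw [h1, Finset.sum_congr rfl fun k _ => Finsupp.add_apply _ _ _,
          Finset.sum_add_distrib, Finset.sum_eq_single (f := fun k => (Finsupp.single i 1 :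
            Fin (n + 1) →₀ ℕ) k) i (fun k _ hk => Finsupp.single_eq_of_ne hk)
            (fun h => absurd (Finset.mem_univ i) h), Finsupp.single_eq_same]
      omega
    rw [h1, xim_add _ (smat_row j a b), ih m' h2 h3, smat_ne j a b hil, lin_single,
      AddMonoidAlgebra.single_mul_single, one_mul]

/-- products with a monomial -/
theorem mul_single_mem {e : ℕ} {w : YR D n} (hw : w ∈ YD D n e) (s : Fin n →₀ ℕ) (c : D) :
    w * AddMonoidAlgebra.single s c ∈ monD D {m | ∃ m', ∑ i, m' i = e ∧ m = m' + s} := by
  intro m hm
  by_cases h : ∃ m', m' + s = m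
  · obtain ⟨m', rfl⟩ := h
    refine ⟨m', hw m' fun h0 => hm ?_, rfl⟩
    rw [AddMonoidAlgebra.coeff_mul_single_add, h0, zero_mul]
  · push Not at h
    exact absurd (AddMonoidAlgebra.coeff_mul_single_of_forall_add_ne _ _ h) hm

end step

theorem monD_mono {D : Type*} [DivisionRing D] {M N : Set (Fin n →₀ ℕ)} (h : M ⊆ N) :
    monD D M ≤ monD D N := fun _ hu m hm => h (hu m hm)

theorem sum_add_single' (m : Fin n →₀ ℕ) (i : Fin n) :
    ∑ k, (m + Finsupp.single i 1 : Fin n →₀ ℕ) k = ∑ k, m k + 1 := by
  rw [Finset.sum_congr rfl fun k _ => Finsupp.add_apply _ _ _, Finset.sum_add_distrib,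
    Finset.sum_eq_single (f := fun k => (Finsupp.single i 1 : Fin n →₀ ℕ) k) i
      (fun k _ hk => Finsupp.single_eq_of_ne hk)
      (fun h => absurd (Finset.mem_univ i) h), Finsupp.single_eq_same]

/-- one step -/
theorem sq_step {D : Type*} [DivisionRing D] [Algebra K D] {a b : D} (ha : a ≠ 0) (hb : b ≠ 0)
    (hab : a * b = -(b * a)) {d : ℕ} {M : Set (Fin (n + 1) →₀ ℕ)}
    (hM : SqSet (n + 1) (d + 1) M) {m0 : Fin n →₀ ℕ} (hm0 : m0 ∈ layS M 1) {j : Fin n}
    (hj : m0 + Finsupp.single j 1 ∉ layS M 0) :
    ∃ M' : Set (Fin (n + 1) →₀ ℕ), SqSet (n + 1) (d + 1) M' ∧ M'.ncard = M.ncard ∧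
      (∀ p, ZS K M d p ≤ ZS K M' d p) ∧ (layS M 0).ncard < (layS M' 0).ncard := by
  set E := smat j a b with hE
  have hrow : ∀ i j, i ≠ j → ∀ k l, E i k * E j l = E j l * E i k := smat_row j a b
  have hind : LinearIndependent D E := smat_ind j b ha
  have hVh : restrictSupport K M ≤ homogeneousSubmodule (Fin (n + 1)) K (d + 1) := by
    rw [homogeneousSubmodule_eq_restrict]
    exact restrictSupport_mono K fun m hm => hM.1 m hm
  have hVD : VD D (restrictSupport K M) = monD D M := VD_restrictSupport M
  set B := d + 2 with hB
  refine ⟨trM D E B (restrictSupport K M), ⟨trM_degree E hrow hind hVh, ?_⟩, ?_, ?_, ?_⟩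
  · intro m hm ⟨i, hi⟩
    apply mem_trM
    rw [hVD]
    -- `m = m' + e_i + e_i`
    set m' := m - Finsupp.single i 2 with hm'
    have h1 : m = (m' + Finsupp.single i 1) + Finsupp.single i 1 := by
      ext k
      rw [Finsupp.add_apply, Finsupp.add_apply, hm', Finsupp.tsub_apply]
      by_cases hk : k = i
      · rw [hk, Finsupp.single_eq_same, Finsupp.single_eq_same]
        omega
      · rw [Finsupp.single_eq_of_ne hk, Finsupp.single_eq_of_ne hk]
        omega
    have h2 : ∑ k, m' k + 1 = d := by
      have h3 := hm
      rw [h1, sum_add_single', sum_add_single'] at h3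
      omega
    have h4 : xim E m' ∈ YD D (n + 1) (∑ k, m' k) := xim_mem E m'
    have hsq : ∀ (k : Fin (n + 1)) (c : D), xim E m' * AddMonoidAlgebra.single
        (Finsupp.single k 2) c ∈ monD D M := by
      intro k c
      refine monD_mono ?_ (mul_single_mem h4 (Finsupp.single k 2) c)
      rintro _ ⟨m'', hm'', rfl⟩
      refine hM.2 _ ?_ ⟨k, ?_⟩
      · have h5 : m'' + Finsupp.single k 2 = m'' + Finsupp.single k 1 + Finsupp.single k 1 := by
          rw [add_assoc, ← Finsupp.single_add]
        rw [h5, sum_add_single', sum_add_single', hm'']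
        omega
      · rw [Finsupp.add_apply, Finsupp.single_eq_same]
        exact Nat.le_add_left _ _
    rw [h1, xim_add E hrow, xim_add E hrow, mul_assoc]
    by_cases hil : i = Fin.last n
    · rw [hil, hE, smat_last, lin_add, lin_single, lin_single]
      have h6 : (AddMonoidAlgebra.single (Finsupp.single (Fin.last n) 1) a +
          AddMonoidAlgebra.single (Finsupp.single j.castSucc 1) b : YR D (n + 1)) *
          (AddMonoidAlgebra.single (Finsupp.single (Fin.last n) 1) a +
          AddMonoidAlgebra.single (Finsupp.single j.castSucc 1) b) =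
          AddMonoidAlgebra.single (Finsupp.single (Fin.last n) 2) (a * a) +
          AddMonoidAlgebra.single (Finsupp.single j.castSucc 2) (b * b) := by
        rw [mul_add, add_mul, add_mul, AddMonoidAlgebra.single_mul_single,
          AddMonoidAlgebra.single_mul_single, AddMonoidAlgebra.single_mul_single,
          AddMonoidAlgebra.single_mul_single, ← Finsupp.single_add, ← Finsupp.single_add,
          add_comm (Finsupp.single j.castSucc 1) (Finsupp.single (Fin.last n) 1), hab]
        have h7 : (AddMonoidAlgebra.single (Finsupp.single (Fin.last n) 1 +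
            Finsupp.single j.castSucc 1) (-(b * a)) : YR D (n + 1)) =
            -AddMonoidAlgebra.single (Finsupp.single (Fin.last n) 1 +
            Finsupp.single j.castSucc 1) (b * a) := AddMonoidAlgebra.single_neg _ _
        rw [h7]
        abel
      rw [h6, mul_add]
      exact Submodule.add_mem _ (hsq _ _) (hsq _ _)
    · rw [hE, smat_ne j a b hil, lin_single, AddMonoidAlgebra.single_mul_single,
        ← Finsupp.single_add]
      exact hsq _ _
  · rw [trM_ncard E hrow hind (Nat.lt_succ_self _) hVh,
      finrank_restrictSupport _ hM.finite]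
  · intro p
    exact trM_cycles E hrow hind (Nat.lt_succ_self _) hVh
  · -- the potential
    have hfin : (layS M 0).Finite := (SqSet.layS (D := d + 1) (i := 0) hM).finite
    have h1 : (insert (m0 + Finsupp.single j 1) (layS M 0)).ncard = (layS M 0).ncard + 1 :=
      Set.ncard_insert_of_notMem hj hfin
    have hU := (finrank_comap_theta E hrow hind (VD D (restrictSupport K M)) (VD_le_YD hVh)).1
    have h2 := ncard_inm_zero (B := B) (Nat.lt_succ_self _) hU
      (insert (m0 + Finsupp.single j 1) (layS M 0)) (by
        rintro m (rfl | hm)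
        · refine ⟨AddMonoidAlgebra.single (sn m0 1) (-b⁻¹) +
            AddMonoidAlgebra.single (sn (m0 + Finsupp.single j 1) 0) 1, ?_, ?_⟩
          · show theta E _ ∈ VD D (restrictSupport K M)
            have e1 : sn m0 1 = sn m0 0 + Finsupp.single (Fin.last n) 1 := by
              ext k
              rw [Finsupp.add_apply]
              refine Fin.lastCases ?_ (fun k => ?_) k
              · rw [sn_last, sn_last, Finsupp.single_eq_same]
              · rw [sn_castSucc, sn_castSucc,
                  Finsupp.single_eq_of_ne (Fin.castSucc_lt_last k).ne, add_zero]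
            have e2 : sn m0 0 + Finsupp.single j.castSucc 1 =
                sn (m0 + Finsupp.single j 1) 0 := by
              ext k
              rw [Finsupp.add_apply]
              refine Fin.lastCases ?_ (fun k => ?_) k
              · rw [sn_last, sn_last, Finsupp.single_eq_of_ne (Fin.castSucc_lt_last j).ne',
                  add_zero]
              · rw [sn_castSucc, sn_castSucc, Finsupp.add_apply]
                congr 1
                by_cases hk : k = j
                · rw [hk, Finsupp.single_eq_same, Finsupp.single_eq_same]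
                · rw [Finsupp.single_eq_of_ne hk, Finsupp.single_eq_of_ne fun h =>
                    hk (Fin.castSucc_injective n h)]
            have e3 : xim E (sn m0 1) = AddMonoidAlgebra.single (sn m0 1) a +
                AddMonoidAlgebra.single (sn (m0 + Finsupp.single j 1) 0) b := by
              rw [e1, xim_add E hrow, hE, xim_smat j a b _ _ (sn_last m0 0) rfl, smat_last,
                lin_add, lin_single, lin_single, mul_add, AddMonoidAlgebra.single_mul_single,
                AddMonoidAlgebra.single_mul_single, one_mul, one_mul, e2]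
            have e4 : xim E (sn (m0 + Finsupp.single j 1) 0) =
                AddMonoidAlgebra.single (sn (m0 + Finsupp.single j 1) 0) 1 := by
              rw [hE, xim_smat j a b _ _ (sn_last _ 0) rfl]
            have e5 : theta E (AddMonoidAlgebra.single (sn m0 1) (-b⁻¹) +
                AddMonoidAlgebra.single (sn (m0 + Finsupp.single j 1) 0) 1) =
                AddMonoidAlgebra.single (sn m0 1) (-b⁻¹ * a) := by
              rw [map_add, theta_single, theta_single, e3, e4, smul_add,
                AddMonoidAlgebra.smul_single, AddMonoidAlgebra.smul_single,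
                AddMonoidAlgebra.smul_single, smul_eq_mul, smul_eq_mul, smul_eq_mul, one_mul,
                add_assoc, ← AddMonoidAlgebra.single_add, neg_mul, neg_mul,
                inv_mul_cancel₀ hb, neg_add_cancel, AddMonoidAlgebra.single_zero, add_zero]
            rw [e5, hVD]
            intro m' hm'
            by_cases h3 : m' = sn m0 1
            · rw [h3]
              exact hm0
            · exact absurd (by rw [AddMonoidAlgebra.coeff_single,
                Finsupp.single_eq_of_ne h3]) hm'
          · intro m'
            rw [AddMonoidAlgebra.coeff_add, Finsupp.add_apply, AddMonoidAlgebra.coeff_single,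
              AddMonoidAlgebra.coeff_single, Finsupp.single_eq_of_ne, zero_add]
            · by_cases h3 : m' = m0 + Finsupp.single j 1
              · rw [h3, Finsupp.single_eq_same, if_pos rfl]
              · rw [Finsupp.single_eq_of_ne, if_neg h3]
                intro h4
                exact h3 (sn_injective h4).1
            · intro h4
              exact absurd (sn_injective h4).2 zero_ne_one
        · refine ⟨AddMonoidAlgebra.single (sn m 0) 1, ?_, ?_⟩
          · show theta E _ ∈ VD D (restrictSupport K M)
            rw [theta_single, one_smul, hVD, hE, xim_smat j a b _ _ (sn_last m 0) rfl]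
            intro m' hm'
            by_cases h3 : m' = sn m 0
            · rw [h3]
              exact hm
            · exact absurd (by rw [AddMonoidAlgebra.coeff_single,
                Finsupp.single_eq_of_ne h3]) hm'
          · intro m'
            rw [AddMonoidAlgebra.coeff_single]
            by_cases h3 : m' = m
            · rw [h3, Finsupp.single_eq_same, if_pos rfl]
            · rw [Finsupp.single_eq_of_ne, if_neg h3]
              intro h4
              exact h3 (sn_injective h4).1)
    rw [h1] at h2
    exact h2

theorem exists_stable_sq (hA : HasAnti K) {d : ℕ} {M : Set (Fin (n + 1) →₀ ℕ)}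
    (hM : SqSet (n + 1) (d + 1) M) :
    ∃ M' : Set (Fin (n + 1) →₀ ℕ), SqSet (n + 1) (d + 1) M' ∧ M'.ncard = M.ncard ∧
      (∀ p, ZS K M d p ≤ ZS K M' d p) ∧
      ∀ m ∈ layS M' 1, ∀ j, m + Finsupp.single j 1 ∈ layS M' 0 := by
  obtain ⟨D, _, _, a, b, ha, hb, hab⟩ := hA
  set T : ℕ := {m : Fin n →₀ ℕ | ∑ i, m i = d + 1}.ncard with hT
  have hbd : ∀ M : Set (Fin (n + 1) →₀ ℕ), SqSet (n + 1) (d + 1) M → (layS M 0).ncard ≤ T := by
    intro M hM
    exact Set.ncard_le_ncard (SqSet.layS (D := d + 1) (i := 0) hM).1 (finite_degree_eq (d + 1))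
  have key : ∀ N, ∀ M' : Set (Fin (n + 1) →₀ ℕ), SqSet (n + 1) (d + 1) M' →
      M'.ncard = M.ncard → (∀ p, ZS K M d p ≤ ZS K M' d p) → T - (layS M' 0).ncard ≤ N →
      ∃ M' : Set (Fin (n + 1) →₀ ℕ), SqSet (n + 1) (d + 1) M' ∧ M'.ncard = M.ncard ∧
      (∀ p, ZS K M d p ≤ ZS K M' d p) ∧
      ∀ m ∈ layS M' 1, ∀ j, m + Finsupp.single j 1 ∈ layS M' 0 := by
    intro N
    induction N with
    | zero =>
      intro M' h1 h2 h3 h4
      refine ⟨M', h1, h2, h3, fun m hm j => ?_⟩
      by_contra hj
      obtain ⟨M'', h5, -, -, h6⟩ := sq_step (K := K) ha hb hab h1 hm hj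
      have := hbd M'' h5
      omega
    | succ N ih =>
      intro M' h1 h2 h3 h4
      by_cases hst : ∀ m ∈ layS M' 1, ∀ j, m + Finsupp.single j 1 ∈ layS M' 0
      · exact ⟨M', h1, h2, h3, hst⟩
      · push Not at hst
        obtain ⟨m, hm, j, hj⟩ := hst
        obtain ⟨M'', h5, h6, h7, h8⟩ := sq_step (K := K) ha hb hab h1 hm hj
        have := hbd M'' h5
        exact ih M'' h5 (h6.trans h2) (fun p => (h3 p).trans (h7 p)) (by omega)
  exact key _ M hM rfl (fun _ => le_rfl) le_rfl

end Vale.Agent.P200.M
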