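import Vale.Agent.P200.M.SqLex
import Vale.Agent.P200.M.Degen
import Vale.Agent.P200.M.Theta
import Vale.Agent.P200.M.Compound

/-! Coordinates over a division ring, followed by a degeneration. -/

namespace Vale.Agent.P200.M

open MvPolynomial Module
open Vale.Agent.P200.B Vale.Agent.P200.G Vale.Agent.P200.L

universe u

variable {K : Type u} [Field K] {n : ℕ}

/-- the number of cycles of a monomial space -/
noncomputable def ZS (K : Type*) [Field K] {n : ℕ} (M : Set (Fin n →₀ ℕ)) (d p : ℕ) : ℕ :=
  finrank K (rc X (restrictSupport K M) (homogeneousSubmodule (Fin n) K d) p)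

section trans
variable {D : Type*} [DivisionRing D] [Algebra K D]

/-- the exponents obtained from a space `V` and a matrix `E` -/
def trM (D : Type*) [DivisionRing D] [Algebra K D] (E : Fin n → Fin n → D) (B : ℕ)
    (V : Submodule K (MvPolynomial (Fin n) K)) : Set (Fin n →₀ ℕ) :=
  inm B ((VD D V).comap (theta E))

theorem VD_le_YD {e : ℕ} {V : Submodule K (MvPolynomial (Fin n) K)}
    (hV : V ≤ homogeneousSubmodule (Fin n) K e) : VD D V ≤ YD D n e := by
  rw [← VD_homogeneous (K := K)]
  exact VD_mono hV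

theorem trM_degree (E : Fin n → Fin n → D)
    (hrow : ∀ i j, i ≠ j → ∀ k l, E i k * E j l = E j l * E i k)
    (hind : LinearIndependent D E) {B e : ℕ} {V : Submodule K (MvPolynomial (Fin n) K)}
    (hV : V ≤ homogeneousSubmodule (Fin n) K e) :
    ∀ m ∈ trM D E B V, ∑ i, m i = e := fun _ hm =>
  inm_subset (finrank_comap_theta E hrow hind (VD D V) (VD_le_YD hV)).1 hm

theorem trM_ncard (E : Fin n → Fin n → D)
    (hrow : ∀ i j, i ≠ j → ∀ k l, E i k * E j l = E j l * E i k)
    (hind : LinearIndependent D E) {B e : ℕ} (hB : e < B)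
    {V : Submodule K (MvPolynomial (Fin n) K)}
    (hV : V ≤ homogeneousSubmodule (Fin n) K e) : (trM D E B V).ncard = finrank K V := by
  have h1 := finrank_comap_theta E hrow hind (VD D V) (VD_le_YD hV)
  have : Module.Finite K V := Submodule.finiteDimensional_of_le hV
  rw [trM, ncard_inm hB h1.1, h1.2, finrank_VD]

theorem mem_trM (E : Fin n → Fin n → D) {B : ℕ} {V : Submodule K (MvPolynomial (Fin n) K)}
    {m : Fin n →₀ ℕ} (hm : xim E m ∈ VD D V) : m ∈ trM D E B V := by
  refine ⟨AddMonoidAlgebra.single m 1, ?_, ?_, fun m' hm' => ?_⟩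
  · show theta E _ ∈ VD D V
    rw [theta_single, one_smul]
    exact hm
  · rw [AddMonoidAlgebra.coeff_single, Finsupp.single_eq_same]
    exact one_ne_zero
  · rw [AddMonoidAlgebra.coeff_single, Finsupp.single_eq_of_ne]
    rintro rfl
    exact lt_irrefl _ hm'

theorem trM_cycles (E : Fin n → Fin n → D)
    (hrow : ∀ i j, i ≠ j → ∀ k l, E i k * E j l = E j l * E i k)
    (hind : LinearIndependent D E) {B d p : ℕ} (hB : d + 1 < B)
    {V : Submodule K (MvPolynomial (Fin n) K)}
    (hV : V ≤ homogeneousSubmodule (Fin n) K (d + 1)) :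
    finrank K (rc X V (homogeneousSubmodule (Fin n) K d) p) ≤ ZS K (trM D E B V) d p := by
  have h1 := finrank_rd_VD (D := D) V (homogeneousSubmodule (Fin n) K d) p
  have h2 := finrank_rd_VD (D := D) (restrictSupport K (trM D E B V))
    (homogeneousSubmodule (Fin n) K d) p
  rw [VD_homogeneous] at h1 h2
  rw [VD_restrictSupport] at h2
  rw [ZS, ← h1, ← h2, compound E hrow hind (VD D V) (VD_le_YD hV)
    (fun u hu c => mul_single_mem_VD V hu c), finrank_rd_theta E hrow hind]
  exact finrank_rd_inm hB (finrank_comap_theta E hrow hind (VD D V) (VD_le_YD hV)).1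

end trans

end Vale.Agent.P200.M
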